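import Vale.Agent.P354YT.Defs
import Vale.Agent.P354YN.Defs

/-!
BACK: from the estimate chart back to the scaffold. The exact statements.
-/

open scoped ContDiff
open Set Filter Topology

noncomputable section

namespace Vale.Agent.P354BK

open Vale.Agent.P354n (R4)
open Vale.Agent.P354R (Pull)
open Vale.Agent.P354XE (Tw Bd gin rd eT)
open Vale.Agent.P354XV (Lv Gq)
open Vale.Agent.P354YT (Pm)
open Vale.Agent.P354YN (Ad zN lN nN)

/-- The gauge does not depend on the time and holds for Kerr. -/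
structure Gau (c : Pm) (N : P354XV.Nat) : Prop where
  is : N.Is
  stat : ∀ p j w, ((p, j, w) ∈ N.U ↔ ((0, p.2), j, w) ∈ N.U) ∧ N.F (p, j, w) = N.F ((0, p.2), j, w)
  kerr : ∀ p, c.r1 ≤ rd p → Gq N p (gin c.M c.a) c.X p

/-- The gauge in the form of first order near the tube. -/
def Fst (c : Pm) (g : Tw) (p : R4) : Prop :=
  |rd p - c.R1| ≤ 1 / (4 * c.k) → Ad c.M g (c.X p) p ∧ c.X p = zN c.M g (c.X p) p +
    (c.k * (rd p - c.R1) / 2) • (lN c.M g (c.X p) p - nN c.M g (c.X p) p)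

/-- The shift of the time function. -/
structure Nu (c : Pm) (ν : ℝ → ℝ) : Prop where
  mono : Monotone ν
  zero : ∀ r ≤ c.R1, ν r = 0
  lip : ∀ r r', r ≤ r' → ν r' - ν r ≤ r' - r

/-- The open region of the bootstrap assumption. -/
def Zo (c : Pm) (ν : ℝ → ℝ) (V : ℝ) : Set R4 :=
  {p | p ∈ c.O ∧ -1 < c.psi p ∧ rd p < c.Rs ∧ c.tau p + ν (rd p) < V}

/-- The link to the estimate chart: a maps Z to a chart in which the metric gt converges to the
Kerr metric with the parameters (M', a') in ingoing coordinates. -/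
structure Lk (c : Pm) (Z : Set R4) (n : ℕ) (s C ε : ℝ) (g : Tw) (a : R4 → R4) (gt : Tw)
    (M' a' : ℝ) : Prop where
  pull : ∃ W Wt, Z ⊆ W ∧ Pull a g W gt Wt ∧ Lv gt Wt
  det : ∀ p ∈ Z, 0 < LinearMap.det (fderiv ℝ a p : R4 →ₗ[ℝ] R4)
  par : |M' - c.M| + |a' - c.a| ≤ ε
  near : ∀ p ∈ Z, Bd n (gt - gin M' a') (a p) (ε * (1 + |(a p).1|) ^ (-s))
  d2 : ∀ p ∈ Z, ‖fderiv ℝ (fderiv ℝ a) p‖ ≤ C
  ini : ∃ t0 : ℝ, ∀ p ∈ Z, c.psi p ≤ 0 →
    ‖a p - p - t0 • eT‖ ≤ ε ∧ ‖fderiv ℝ a p - ContinuousLinearMap.id ℝ R4‖ ≤ ε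

/-- The region of the bootstrap assumption with its lateral boundary. -/
def Zc (c : Pm) (ν : ℝ → ℝ) (V : ℝ) : Set R4 :=
  {p | p ∈ c.O ∧ -1 ≤ c.psi p ∧ rd p ≤ c.Rs ∧ c.tau p + ν (rd p) < V}

/-- BACK0: the improvement of the first bootstrap assumption at any order k, from the link, the
bounds of order k + 1 in the scaffold (HIGH), and the smallness on the collar. -/
def BACK0 : Prop :=
  ∀ (c : Pm) (N : P354XV.Nat) ν, c.Ok → Gau c N → Nu c ν → ∀ (k : ℕ) (s C δ : ℝ), 1 < s → 0 < δ →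
    ∃ ε > 0, ∀ V g a gt M' a', Lk c (Zo c ν V) (max N.m 3) s C ε g a gt M' a' →
      (∀ p ∈ Zo c ν V, Gq N p g c.X p ∧ Fst c g p ∧ Bd (k + 1) g p C) →
      (∀ p ∈ Zc c ν V, (∀ v w, ContDiffAt ℝ ∞ (fun x => g x v w) p) ∧
        (c.psi p < 0 → Bd k (g - gin c.M c.a) p ε)) →
      ∀ p ∈ Zc c ν V, Bd k (g - gin c.M c.a) p δ

end Vale.Agent.P354BK
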