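import Vale.Agent.P354BK.Gr
import Vale.Agent.P354BK.Defs
import Vale.Agent.P354YN.Smo
import Vale.Agent.P354YN.Jet
import Vale.Agent.P354YT.Cut
import Vale.Agent.P354YR.Met
import Vale.Agent.P354YJ.GinM
import Vale.Agent.P354YQ.Rg

/-!
BACK, second part: the natural fields and the gauge for metrics close to Kerr.
-/

open scoped ContDiff
open Set Filter Topology

noncomputable section

namespace Vale.Agent.P354BK

open Vale.Agent.P354n (R4)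
open Vale.Agent.P354I (rp)
open Vale.Agent.P354R (Met Del)
open Vale.Agent.P354RC (bs)
open Vale.Agent.P354XD (tb)
open Vale.Agent.P354XE (Tw Bd gin rd eT Lo xs dr dq kf)
open Vale.Agent.P354XV (Jet jet)
open Vale.Agent.P354XA (rd_cont)
open Vale.Agent.P354YT (Pm Tau No)
open Vale.Agent.P354YN hiding No
open Vale.Agent.P354YI (GM GM_ap)
open Vale.Agent.P354YJ (open_rd gin_met gin_cd)

theorem ifd_par {P : Type} [NormedAddCommGroup P] [NormedSpace ℝ P] {F : P × R4 → ℝ} {z : P × R4}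
    (h : ContDiffAt ℝ ∞ F z) (k : ℕ) :
    ContDiffAt ℝ ∞ (fun y : P × R4 => iteratedFDeriv ℝ k (fun x => F (y.1, x)) y.2) z := by
  induction k with
  | zero =>
    simp only [iteratedFDeriv_zero_eq_comp]
    exact (continuousMultilinearCurryFin0 ℝ R4 ℝ).symm.contDiff.contDiffAt.comp z h
  | succ k ih =>
    simp only [iteratedFDeriv_succ_eq_comp_left]
    refine (continuousMultilinearCurryLeftEquiv ℝ (fun _ : Fin (k + 1) => R4)
      ℝ).symm.contDiff.contDiffAt.comp z (ContDiffAt.fderiv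
        (f := fun (y : P × R4) x => iteratedFDeriv ℝ k (fun x => F (y.1, x)) x) (g := Prod.snd)
        (n := ∞) (m := ∞) ?_ contDiffAt_snd (by exact_mod_cast le_top))
    exact ih.comp (z, z.2) (f := fun u : (P × R4) × R4 => (u.1.1, u.2)) (by fun_prop)

theorem jet_par (k : ℕ) {z : (ℝ × ℝ) × R4} (h : 0 < rd z.2) :
    ContDiffAt ℝ ∞ (fun y : (ℝ × ℝ) × R4 => jet k (gin y.1.1 y.1.2) y.2) z :=
  contDiffAt_pi.2 fun n => contDiffAt_pi.2 fun α => contDiffAt_pi.2 fun i =>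
    contDiffAt_pi.2 fun j => (ContinuousMultilinearMap.apply ℝ (fun _ : Fin n => R4) ℝ
      fun l => bs (α l)).contDiff.contDiffAt.comp z (ifd_par
        (F := fun y : (ℝ × ℝ) × R4 => gin y.1.1 y.1.2 y.2 (bs i) (bs j))
        (P354YR.s_gin contDiffAt_snd (norm_pos_iff.1 h) (by fun_prop) (by fun_prop) _ _) n)

theorem jet_sub {k : ℕ} {g g' : Tw} {q : R4} {η : ℝ}
    (h : ∀ v w, ContDiffAt ℝ ∞ (fun x => g x v w) q)
    (h' : ∀ v w, ContDiffAt ℝ ∞ (fun x => g' x v w) q) (b : Bd k (g - g') q η) :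
    ‖jet k g q - jet k g' q‖ ≤ η := by
  have n : ∀ m ≤ k, ∀ i j, ‖iteratedFDeriv ℝ m (fun x => (g - g') x (bs i) (bs j)) q‖ ≤ η :=
    fun m hm i j => by simpa [P354YI.norm_bs] using b m hm (bs i) (bs j)
  have h0 : 0 ≤ η := (norm_nonneg _).trans (n 0 k.zero_le 0 0)
  refine (pi_norm_le_iff_of_nonneg h0).2 fun m => (pi_norm_le_iff_of_nonneg h0).2 fun α =>
    (pi_norm_le_iff_of_nonneg h0).2 fun i => (pi_norm_le_iff_of_nonneg h0).2 fun j => ?_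
  have e := iteratedFDeriv_sub_apply ((h (bs i) (bs j)).of_le (P354YI.le_inf m))
    ((h' (bs i) (bs j)).of_le (P354YI.le_inf m))
  have := (iteratedFDeriv ℝ m (fun x => (g - g') x (bs i) (bs j)) q).le_of_opNorm_le
    (n m (Nat.le_of_lt_succ m.2) i j) fun l => bs (α l)
  simp only [P354YI.norm_bs, Finset.prod_const_one, mul_one] at this
  refine le_of_eq_of_le ?_ this
  exact congrArg norm (congrArg (fun T => T fun l => bs (α l)) e).symm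

theorem jet_t (k : ℕ) (M a : ℝ) (p : R4) : jet k (gin M a) (0, p.2) = jet k (gin M a) p := by
  have := jet_ok.2.2 k M a p.1 (0, p.2)
  rw [← this]
  congr 1
  simp [eT]

/-- The slice t = 0 of the region r1 ≤ r ≤ Rs. -/
def K0 (c : Pm) : Set R4 := {p | p.1 = 0 ∧ c.r1 ≤ rd p ∧ rd p ≤ c.Rs}

theorem K0_cpt (c : Pm) : IsCompact (K0 c) := by
  refine Metric.isCompact_of_isClosed_isBounded ((isClosed_eq continuous_fst continuous_const).and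
    ((isClosed_le continuous_const rd_cont).and (isClosed_le rd_cont continuous_const)))
    (isBounded_iff_forall_norm_le.2 ⟨c.Rs, fun p hp => ?_⟩)
  simpa [hp.1] using (P354XA.norm_le p).trans (add_le_add le_rfl hp.2.2)

variable {c : Pm} {N : P354XV.Nat}

theorem self_le {E : Type} [NormedAddCommGroup E] {z : E} {ρ : ℝ} (h : 0 < ρ) : ‖z - z‖ ≤ ρ := by
  simpa using h.le

theorem lip_im {E F : Type} [NormedAddCommGroup E] [NormedSpace ℝ E] [FiniteDimensional ℝ E]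
    [NormedAddCommGroup F] [NormedSpace ℝ F] {K : Set R4} (hK : IsCompact K) (f : R4 → E)
    (Φ : E → F) (Q : E → Prop) (h : ∀ p ∈ K, ContinuousAt f p ∧ ContDiffAt ℝ ∞ Φ (f p) ∧
      ∀ᶠ y in 𝓝 (f p), Q y) : ∃ ρ > 0, ∃ L, 1 ≤ L ∧ ∀ p ∈ K, ∀ y, ‖y - f p‖ ≤ ρ →
      Q y ∧ ‖Φ y‖ ≤ L ∧ ∀ y', ‖y' - f p‖ ≤ ρ → ‖Φ y - Φ y'‖ ≤ L * ‖y - y'‖ := by
  obtain ⟨ρ, r0, L, l1, H⟩ := lip_near (hK.image_of_continuousOn fun p hp =>
    (h p hp).1.continuousWithinAt) (Φ := Φ) (Q := Q) (by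
      rintro _ ⟨p, hp, rfl⟩
      exact ⟨(h p hp).2.1.of_le (by simp), (h p hp).2.2⟩)
  exact ⟨ρ, r0, L, l1, fun p hp => H _ ⟨p, hp, rfl⟩⟩

theorem arith {L1 L2 ρ ε x y : ℝ} (l1 : 1 ≤ L1) (l2 : 1 ≤ L2) (e0 : 0 ≤ ε) (x0 : 0 ≤ x)
    (y0 : 0 ≤ y) (h1 : ε ≤ ρ / (4 * (L1 + L2))) (h2 : x ≤ ρ / (4 * (L1 + L2)))
    (h3 : y ≤ ρ / (4 * (L1 + L2))) : (ε + L1 * (ε + x) ≤ ρ ∧ ε + L2 * (ε + x) ≤ ρ ∧ y ≤ ρ) ∧
      ε + L1 * (ε + x) ≤ 2 * (L1 + L2) * (ε + x + y) ∧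
      ε + L2 * (ε + x) ≤ 2 * (L1 + L2) * (ε + x + y) ∧ y ≤ 2 * (L1 + L2) * (ε + x + y) ∧
      ε + L1 * (ε + x) ≤ 2 * (L1 + L2) * (ε + x) := by
  rw [le_div_iff₀' (by positivity)] at h1 h2 h3
  refine ⟨⟨?_, ?_, ?_⟩, ?_, ?_, ?_, ?_⟩ <;> nlinarith

theorem nrm (p q : R4) : ‖((0, q.2) : R4) - (0, p.2)‖ = ‖q.2 - p.2‖ := by simp [Prod.norm_def]

theorem nrm2 {M a M' a' ε : ℝ} (h : |M' - M| + |a' - a| ≤ ε) : ‖((M', a') : ℝ × ℝ) - (M, a)‖ ≤ ε :=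
  max_le (le_trans (le_add_of_nonneg_right (abs_nonneg _)) h)
    (le_trans (le_add_of_nonneg_left (abs_nonneg _)) h)

/-- The jets of Kerr depend in a Lipschitz way on the parameters and the point. -/
theorem jet_lip (h : c.Ok) (k : ℕ) : ∃ ρ > 0, ∃ L, 1 ≤ L ∧ ∀ p q : R4, ∀ M' a' ε, c.r1 ≤ rd p →
    rd p ≤ c.Rs → |M' - c.M| + |a' - c.a| ≤ ε → ε ≤ ρ → ‖q.2 - p.2‖ ≤ ρ → 0 < rd q ∧
      ‖jet k (gin M' a') q - jet k (gin c.M c.a) p‖ ≤ L * (ε + ‖q.2 - p.2‖) := by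
  obtain ⟨ρ, r0, L, l1, H⟩ := lip_near (isCompact_singleton (x := (c.M, c.a)).prod (K0_cpt c))
    (Φ := fun y : (ℝ × ℝ) × R4 => jet k (gin y.1.1 y.1.2) y.2) (Q := fun y => 0 < rd y.2)
    fun z hz => have k := h.r10.trans_le hz.2.2.1
      ⟨(jet_par _ k).of_le (by simp),
        (rd_cont.comp continuous_snd).continuousAt.eventually (lt_mem_nhds k)⟩
  refine ⟨ρ, r0, L, l1, fun p q M' a' ε h1 h2 h3 h4 h5 => ?_⟩
  have e0 : 0 ≤ ε := le_trans (by positivity) h3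
  obtain ⟨k1, -, k2⟩ := H ((c.M, c.a), (0, p.2)) ⟨rfl, rfl, h1, h2⟩ ((M', a'), (0, q.2))
    (max_le ((nrm2 h3).trans h4) ((nrm p q).trans_le h5))
  have k3 := k2 _ (self_le r0)
  simp only [jet_t] at k3
  exact ⟨k1, k3.trans (mul_le_mul_of_nonneg_left (max_le ((nrm2 h3).trans
    (le_add_of_nonneg_right (norm_nonneg _))) ((nrm p q).trans_le (le_add_of_nonneg_left e0)))
    (by linarith))⟩

theorem ph_cd (h : N.Is) {z : (R4 × Jet N.m × R4) × Jet 1} (h1 : z.1 ∈ N.U)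
    (h2 : (g0 z.2).det ≠ 0) : ContDiffAt ℝ ∞
      (fun z : (R4 × Jet N.m × R4) × Jet 1 => N.F z.1 - GJ z.2 z.1.2.2 z.1.2.2) z :=
  (P354YI.at_comp (h.sm.contDiffAt (h.opn.mem_nhds h1)) contDiffAt_fst).sub
    (SA.gj contDiffAt_snd h2 contDiffAt_fst.snd.snd contDiffAt_fst.snd.snd)

/-- The gauge in the form of second order. -/
theorem far_est (h : c.Ok) (T : Tau c) (G : Gau c N) : ∃ ρ > 0, ∃ K, 1 ≤ K ∧
    ∀ (p q w : R4) (gt : Tw) Wt M' a' ε, c.r1 ≤ rd p → rd p ≤ c.Rs →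
      |M' - c.M| + |a' - c.a| ≤ ε → ε ≤ ρ → ‖q.2 - p.2‖ ≤ ρ → ‖w - c.X p‖ ≤ ρ → IsOpen Wt →
      Met gt Wt → q ∈ Wt → Bd (max N.m 3) (gt - gin M' a') q ε →
      ‖N.F (p, jet N.m gt q, w) - GM (tb gt) q w w - fderiv ℝ c.X p (c.X p)‖ ≤
        K * (ε + ‖q.2 - p.2‖ + ‖w - c.X p‖) ∧ ‖fderiv ℝ c.X p (c.X p)‖ ≤ K := by
  obtain ⟨ρ1, r1, L1, l1, H1⟩ := jet_lip h N.m
  obtain ⟨ρ2, r2, L2, l2, H2⟩ := jet_lip h 1
  have p0 : ∀ p ∈ K0 c, 0 < rd p := fun p hp => h.r10.trans_le hp.2.1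
  have jc : ∀ k, ∀ p ∈ K0 c, ContinuousAt (jet k (gin c.M c.a)) p := fun k p hp =>
    (jet_at k (gin_cd (p0 p hp) _ _)).continuousAt
  obtain ⟨ρ, r0, L, l0, H⟩ := lip_im (K0_cpt c)
    (fun p => (((p, jet N.m (gin c.M c.a) p, c.X p), jet 1 (gin c.M c.a) p) :
      (R4 × Jet N.m × R4) × Jet 1)) (fun z => N.F z.1 - GJ z.2 z.1.2.2 z.1.2.2) (fun _ => True)
    fun p hp => ⟨(continuousAt_id.prodMk ((jc _ p hp).prodMk
        (T.X_sm.continuousOn.continuousAt (open_rd.mem_nhds (p0 p hp))))).prodMk (jc _ p hp),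
      ph_cd G.is (G.kerr p hp.2.1).1 (g0_det open_rd (gin_met _ _) (p0 p hp) _),
      .of_forall fun _ => trivial⟩
  have l4 : L ≤ L * (2 * (L1 + L2)) := le_mul_of_one_le_right (by linarith) (by linarith)
  refine ⟨min (min ρ1 ρ2) (ρ / (4 * (L1 + L2))), by positivity, _, l0.trans l4,
    fun p q w gt Wt M' a' ε h1 h2 h3 h4 h5 h6 o m hq b => ?_⟩
  simp only [le_min_iff] at h4 h5 h6
  obtain ⟨⟨a1, a2, a3⟩, a4, a5, a6, -⟩ := arith l1 l2 (le_trans (by positivity) h3)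
    (norm_nonneg _) (norm_nonneg _) h4.2 h5.2 h6.2
  obtain ⟨q0, k1⟩ := H1 p q M' a' ε h1 h2 h3 h4.1.1 h5.1.1
  obtain ⟨-, k2⟩ := H2 p q M' a' ε h1 h2 h3 h4.1.2 h5.1.2
  have sm : ∀ v w, ContDiffAt ℝ ∞ (fun x => gt x v w) q := fun v w =>
    (m.smooth v w).contDiffAt (o.mem_nhds hq)
  have j : ∀ k ≤ max N.m 3, ∀ B, ‖jet k (gin M' a') q - jet k (gin c.M c.a) p‖ ≤ B →
      ‖jet k gt q - jet k (gin c.M c.a) (0, p.2)‖ ≤ ε + B := fun k hk B hB => by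
    rw [jet_t]
    exact (norm_sub_le_norm_sub_add_norm_sub _ _ _).trans (add_le_add
      (jet_sub sm (gin_cd q0 _ _) fun i hi => b i (hi.trans hk)) hB)
  have k3 := j _ (le_max_left _ _) _ k1
  have k4 := j 1 (by omega) _ k2
  have m0 : ((0, p.2) : R4) ∈ K0 c := ⟨rfl, h1, h2⟩
  obtain ⟨-, -, k5⟩ := H _ m0 (((0, p.2), jet N.m gt q, w), jet 1 gt q)
    (max_le (max_le (self_le r0) (max_le (k3.trans a1) a3)) (k4.trans a2))
  have k6 := (k5 _ (self_le r0)).trans (mul_le_mul_of_nonneg_left (max_le (max_le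
    ((congrArg norm (sub_self _)).trans_le (norm_zero.trans_le ((norm_nonneg _).trans a6)))
    (max_le (k3.trans a4) a6)) (k4.trans a5)) (zero_le_one.trans l0))
  have k7 := (H _ m0 _ (self_le r0)).2.1
  have p1 := h.r10.trans_le h1
  have e : N.F ((0, p.2), jet N.m (gin c.M c.a) (0, p.2), c.X (0, p.2)) -
      GJ (jet 1 (gin c.M c.a) (0, p.2)) (c.X (0, p.2)) (c.X (0, p.2)) = fderiv ℝ c.X p (c.X p) := by
    rw [jet_t, jet_t, ← (G.stat p _ _).2, gj_jet open_rd (gin_met _ _) p1, ← GM_ap]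
    exact ((P354YQ.eq2_iff (b := id) open_rd (gin_met _ _) p1).1 (G.kerr p h1)).2.symm
  dsimp only at k6 k7
  rw [e] at k6 k7
  rw [← (G.stat p _ _).2, gj_jet o m hq, ← GM_ap, ← mul_assoc] at k6
  exact ⟨k6, k7.trans l4⟩

theorem No_eq (p : R4) : P354YN.No p = No p := by simp [P354YN.No, No]

theorem sign_X {M a : ℝ} {p : R4} (h : rd p ≠ 0) (hD : Del M a (rd p) ≠ 0) (x : ℝ) :
    gin M a p (Lo M a p + No p) (eT + x • (Lo M a p - No p)) = -2 := by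
  have B := P354XA.gin_bil M a p
  have n0 : ∀ v, gin M a p v (No p) = -kf a p v := P354YJ.gin_n0 h
  have d1 : dr p (Lo M a p + No p) = 0 := by
    have := P354XA.dr_Lo (M := M) (a := a) h
    have e := P354XA.rd_sq p
    simp only [P354XA.dr_eq, P354XA.ip, No, Prod.fst_add, Prod.snd_add, Prod.smul_fst,
      Prod.smul_snd, smul_eq_mul] at this e ⊢
    field_simp at this ⊢
    linear_combination rd p * this + e
  have d2 : dr p eT = 0 := by simp [P354XA.dr_eq, P354XA.ip, eT]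
  have d3 : dq p eT = 0 := by simp [P354XA.dq_eq, eT]
  rw [sub_eq_add_neg, ← neg_one_smul ℝ (No p), B.add_right, B.smul_right, B.add_right,
    B.smul_right, n0, P354XA.gin_symm M a p _ (Lo M a p), P354XA.gin_Lo h hD d1, B.add_left,
    P354XA.gin_Lo h hD d2, P354XA.gin_symm M a p (No p), n0]
  simp only [kf, d1, d2, d3, show eT.1 = 1 from rfl]
  ring

theorem ip_cont {Y : Type} [TopologicalSpace Y] {J : Y → Jet 0} {u v : Y → R4} {x : Y}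
    (a : ContinuousAt J x) (b : ContinuousAt u x) (d : ContinuousAt v x) :
    ContinuousAt (fun y => ip (J y) (u y) (v y)) x :=
  ContinuousAt.comp (g := fun z : Jet 0 × R4 × R4 => ip z.1 z.2.1 z.2.2)
    (f := fun y => (J y, u y, v y)) (SA.ip contDiffAt_fst contDiffAt_snd.fst
      contDiffAt_snd.snd).continuousAt (a.prodMk (b.prodMk d))

theorem Lo_ct {z : ((ℝ × ℝ) × R4) × R4} (a1 : rd z.1.2 ≠ 0) (a2 : Del z.1.1.1 z.1.1.2 (rd z.1.2) ≠ 0) :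
    ContinuousAt (fun z : ((ℝ × ℝ) × R4) × R4 => Lo z.1.1.1 z.1.1.2 z.1.2 + No z.1.2) z := by
  have hr := rd_cont
  simp only [Lo, No, P354XE.Om, Del, Matrix.cons_val] at a2 ⊢
  fun_prop (disch := assumption)

theorem sg_ct {z : ((ℝ × ℝ) × R4) × R4} (p0 : 0 < rd z.1.2)
    (a2 : Del z.1.1.1 z.1.1.2 (rd z.1.2) ≠ 0) :
    ContinuousAt (fun z : ((ℝ × ℝ) × R4) × R4 => ip (jet 0 (gin z.1.1.1 z.1.1.2) z.1.2)
      (Lo z.1.1.1 z.1.1.2 z.1.2 + No z.1.2) z.2) z :=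
  ip_cont (ContinuousAt.comp (g := fun y : (ℝ × ℝ) × R4 => jet 0 (gin y.1.1 y.1.2) y.2)
    (f := Prod.fst) (jet_par 0 p0).continuousAt continuousAt_fst) (Lo_ct p0.ne' a2) continuousAt_snd

theorem sign_ev {z : ((ℝ × ℝ) × R4) × R4} (h : |z.1.1.2| < z.1.1.1)
    (h1 : rp z.1.1.1 z.1.1.2 < rd z.1.2)
    (h2 : gin z.1.1.1 z.1.1.2 z.1.2 (Lo z.1.1.1 z.1.1.2 z.1.2 + No z.1.2) z.2 < 0) :
    ∀ᶠ z : ((ℝ × ℝ) × R4) × R4 in 𝓝 z, |z.1.1.2| < z.1.1.1 ∧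
      rp z.1.1.1 z.1.1.2 < rd z.1.2 ∧
      gin z.1.1.1 z.1.1.2 z.1.2 (Lo z.1.1.1 z.1.1.2 z.1.2 + No z.1.2) z.2 < 0 := by
  have p0 : 0 < rd z.1.2 := by
    obtain ⟨-, a1, a2, -⟩ := P354XA.hor h
    linarith
  have c1 : Continuous fun z : ((ℝ × ℝ) × R4) × R4 => rd z.1.2 :=
    rd_cont.comp continuous_fst.snd
  have c2 : Continuous fun z : ((ℝ × ℝ) × R4) × R4 => rp z.1.1.1 z.1.1.2 := by
    unfold rp
    fun_prop
  have c3 : Continuous fun z : ((ℝ × ℝ) × R4) × R4 => z.1.1.1 := continuous_fst.fst.fst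
  have c4 : Continuous fun z : ((ℝ × ℝ) × R4) × R4 => |z.1.1.2| := continuous_fst.fst.snd.abs
  refine ((isOpen_lt c4 c3).mem_nhds h |> Eventually.and <| Eventually.and
    ((isOpen_lt c2 c1).mem_nhds h1) ?_)
  have e := ip_jet open_rd (gin_met z.1.1.1 z.1.1.2) p0 0
    (Lo z.1.1.1 z.1.1.2 z.1.2 + No z.1.2) z.2
  filter_upwards [(sg_ct p0 (P354YT.Del_pos h h1).ne').eventually_lt continuousAt_const
    (e.trans_lt h2), (isOpen_lt continuous_const c1).mem_nhds p0] with y y1 y2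
  exact (ip_jet open_rd (gin_met y.1.1.1 y.1.1.2) y2 0 _ _).symm.trans_lt y1

/-- The natural fields near the tube. -/
theorem tube_est (hK : KERR) (h : c.Ok) (T : Tau c) : ∃ ρ > 0, ∃ K, 1 ≤ K ∧
    ∀ (p q w : R4) (gt : Tw) (M' a' ε η κ : ℝ), |rd p - c.R1| ≤ 1 / (4 * c.k) →
      |M' - c.M| + |a' - c.a| ≤ ε → ε ≤ ρ → ‖q.2 - p.2‖ ≤ ρ → ‖w - c.X p‖ ≤ ρ →
      (∀ v w, ContDiffAt ℝ ∞ (fun x => gt x v w) q) → Bd 3 (gt - gin M' a') q η → η ≤ ε → 0 < κ →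
      κ ^ 3 * M' = c.M → ‖zN c.M gt w q - κ • eT‖ ≤ K * η ∧
        ‖lN c.M gt w q - nN c.M gt w q - (Lo c.M c.a p - No p)‖ ≤ K * (ε + ‖q.2 - p.2‖) ∧
        ‖Lo c.M c.a p - No p‖ ≤ K := by
  obtain ⟨ρ1, r1, L1, l1, H1⟩ := jet_lip h 3
  have k4 : 1 / (4 * c.k) ≤ 1 / 2 := one_div_le_one_div_of_le two_pos (by linarith [h.k])
  have rr : ∀ p : R4, |rd p - c.R1| ≤ 1 / (4 * c.k) → rp c.M c.a < rd p ∧ c.r1 ≤ rd p ∧
      rd p ≤ c.Rs := fun p hp => by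
    obtain ⟨a1, a2⟩ := abs_le.1 (hp.trans k4)
    exact ⟨by linarith [h.rpR], by linarith [h.rpR, h.r1.2], by linarith [h.Rs]⟩
  have hK1 : IsCompact {p ∈ K0 c | |rd p - c.R1| ≤ 1 / (4 * c.k)} :=
    (K0_cpt c).inter_right (isClosed_le (rd_cont.sub continuous_const).abs continuous_const)
  have p0 : ∀ p ∈ K0 c, 0 < rd p := fun p hp => h.r10.trans_le hp.2.1
  have Xc : ∀ p ∈ K0 c, ContinuousAt c.X p := fun p hp =>
    T.X_sm.continuousOn.continuousAt (open_rd.mem_nhds (p0 p hp))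
  have sg : ∀ p : R4, |rd p - c.R1| ≤ 1 / (4 * c.k) →
      gin c.M c.a p (Lo c.M c.a p + No p) (c.X p) < 0 := fun p hp => by
    rw [T.X_tube p hp, sign_X (h.r10.trans_le (rr p hp).2.1).ne'
      (P354YT.Del_pos h.sub (rr p hp).1).ne']
    norm_num
  obtain ⟨ρ2, r2, L2, -, H2⟩ := lip_im hK1
    (fun p => ((((c.M, c.a), p), c.X p) : ((ℝ × ℝ) × R4) × R4)) (fun _ => (0 : ℝ))
    (fun z => |z.1.1.2| < z.1.1.1 ∧ rp z.1.1.1 z.1.1.2 < rd z.1.2 ∧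
      gin z.1.1.1 z.1.1.2 z.1.2 (Lo z.1.1.1 z.1.1.2 z.1.2 + No z.1.2) z.2 < 0) fun p hp =>
    ⟨(continuousAt_const.prodMk continuousAt_id).prodMk (Xc p hp.1), contDiffAt_const,
      sign_ev h.sub (rr p hp.2).1 (sg p hp.2)⟩
  obtain ⟨ρ, r0, L, l0, H⟩ := lip_im hK1 (fun p => ((c.M, jet 3 (gin c.M c.a) p, c.X p) : A3))
    (fun z => (zJ z, lJ z - nJ z)) (fun _ => True) fun p hp =>
      have u := (hK c.M c.M c.a 1 p (c.X p) one_pos (by simp) h.sub (rr p hp.2).1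
        (No_eq p ▸ sg p hp.2)).1
      ⟨continuousAt_const.prodMk ((jet_at 3 (gin_cd (p0 p hp.1) _ _)).continuousAt.prodMk
        (Xc p hp.1)), (zj_at u).prodMk ((lj_at u).sub (nj_at u)), .of_forall fun _ => trivial⟩
  have l4 : L ≤ L * (2 * (L1 + 1)) := le_mul_of_one_le_right (by linarith) (by linarith)
  refine ⟨min (min ρ1 ρ2) (ρ / (4 * (L1 + 1))), by positivity, _, l0.trans l4,
    fun p q w gt M' a' ε η κ h1 h3 h4 h5 h6 sm b h7 k0 k3 => ?_⟩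
  simp only [le_min_iff] at h4 h5 h6
  have e0 : 0 ≤ ε := le_trans (by positivity) h3
  obtain ⟨⟨a1, -, a3⟩, -, -, -, a4⟩ := arith l1 le_rfl e0 (norm_nonneg _) (norm_nonneg _)
    h4.2 h5.2 h6.2
  obtain ⟨h0, h2, h2'⟩ := rr p h1
  obtain ⟨q0, k1⟩ := H1 p q M' a' ε h2 h2' h3 h4.1.1 h5.1.1
  have k2 := jet_sub sm (gin_cd q0 _ _) b
  have m0 : ((0, p.2) : R4) ∈ {p ∈ K0 c | |rd p - c.R1| ≤ 1 / (4 * c.k)} := ⟨⟨rfl, h2, h2'⟩, h1⟩
  obtain ⟨⟨s1, s2, s3⟩, -⟩ := H2 _ m0 (((M', a'), (0, q.2)), w)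
    (max_le (max_le ((nrm2 h3).trans h4.1.2) ((nrm p q).trans_le h5.1.2)) h6.1.2)
  obtain ⟨⟨-, -, s4⟩, -⟩ := H2 _ m0 (((c.M, c.a), (0, p.2)), w) (max_le (self_le r2) h6.1.2)
  obtain ⟨-, -, -, -, -, -, v1, -⟩ := hK c.M M' a' κ q w k0 k3 s1 s2 (No_eq q ▸ s3)
  obtain ⟨-, -, -, -, v2, v3, -⟩ := hK c.M c.M c.a 1 p w one_pos (by simp) h.sub h0 (No_eq p ▸ s4)
  have d : ∀ j : Jet 3, ‖j - jet 3 (gin c.M c.a) p‖ ≤ ρ → ‖((c.M, j, w) : A3) -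
      (c.M, jet 3 (gin c.M c.a) (0, p.2), c.X (0, p.2))‖ ≤ ρ := fun j hj => by
    rw [jet_t]
    exact max_le (self_le r0) (max_le hj a3)
  have k5 : ‖jet 3 gt q - jet 3 (gin c.M c.a) p‖ ≤ ε + L1 * (ε + ‖q.2 - p.2‖) :=
    (norm_sub_le_norm_sub_add_norm_sub _ _ _).trans (add_le_add (k2.trans h7) k1)
  obtain ⟨-, -, k6⟩ := H _ m0 _ (d _ (k5.trans a1))
  have nj : ∀ j j' : Jet 3, ‖((c.M, j, w) : A3) - (c.M, j', w)‖ = ‖j - j'‖ := fun j j' => by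
    simp [Prod.norm_def]
  have k7 := k6 _ (d _ (k1.trans ((le_add_of_nonneg_left e0).trans a1)))
  have k8 := k6 _ (d _ (self_le r0))
  have k9 := (H _ m0 _ (d _ (self_le r0))).2.1
  rw [nj] at k7 k8
  have e : lJ (c.M, jet 3 (gin c.M c.a) p, w) - nJ (c.M, jet 3 (gin c.M c.a) p, w) =
      Lo c.M c.a p - No p := by
    rw [← No_eq]
    exact congrArg₂ _ (v2.trans (by simp)) (v3.trans (by simp))
  rw [← e, ← v1, mul_assoc L, mul_assoc L]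
  exact ⟨((norm_fst_le _).trans k7).trans (mul_le_mul_of_nonneg_left (k2.trans
    (le_mul_of_one_le_left ((norm_nonneg _).trans k2) (show 1 ≤ 2 * (L1 + 1) by linarith))) (zero_le_one.trans l0)),
    ((norm_snd_le _).trans k8).trans (mul_le_mul_of_nonneg_left (k5.trans a4)
      (zero_le_one.trans l0)), ((norm_snd_le _).trans k9).trans l4⟩

end Vale.Agent.P354BK
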