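import Vale.Agent.P354BK.Main
import Vale.Agent.P354XY.Cone
import Vale.Agent.P354YR.Nfo
import Vale.Agent.P354YT.Main

/-!
BACK0 without hypotheses.
-/

namespace Vale.Agent.P354BK

theorem back0_ok : BACK0 :=
  back0 P354YR.nf_ok.2.2.2.2 P354YR.nf_ok.2.2.2.1 P354YT.tau_ok P354XY.cone P354XY.itp P354XY.zero

end Vale.Agent.P354BK
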