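import Mathlib

/-!
BACK, first part: comparison along the lines of a vector field, Lipschitz bounds near compact
sets, interpolation.
-/

open scoped ContDiff
open Set Filter Topology

namespace Vale.Agent.P354BK

variable {E F : Type} [NormedAddCommGroup E] [NormedSpace ℝ E] [NormedAddCommGroup F]
  [NormedSpace ℝ F]

/-- Comparison with a barrier along a curve. -/
theorem barrier {y : ℝ → F} {B : ℝ → ℝ} {s t : ℝ} (hst : s ≤ t)
    (h : ∀ u ∈ Icc s t, ∃ y' B', HasDerivAt y y' u ∧ HasDerivAt B B' u ∧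
      (‖y u‖ = B u → ‖y'‖ < B')) (h0 : ‖y s‖ ≤ B s) : ‖y t‖ ≤ B t := by
  choose! y' B' h using h
  exact image_norm_le_of_norm_deriv_right_lt_deriv_boundary'
    (fun u hu => (h u hu).1.continuousAt.continuousWithinAt)
    (fun u hu => (h u (Ico_subset_Icc_self hu)).1.hasDerivWithinAt) h0
    (fun u hu => (h u hu).2.1.continuousAt.continuousWithinAt)
    (fun u hu => (h u (Ico_subset_Icc_self hu)).2.1.hasDerivWithinAt)
    (fun u hu => (h u (Ico_subset_Icc_self hu)).2.2) ⟨hst, le_rfl⟩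

/-- A bounded primitive of the rate. -/
theorem ex_prim {s : ℝ} (hs : 1 < s) : ∃ H : ℝ → ℝ, ∃ b, ∀ x,
    HasDerivAt H ((1 + |x|) ^ (-s)) x ∧ 0 ≤ H x ∧ H x ≤ b := by
  have hi : MeasureTheory.Integrable fun x : ℝ => (1 + |x|) ^ (-s) :=
    integrable_one_add_norm (E := ℝ) (by simpa using hs)
  have hc : Continuous fun x : ℝ => (1 + |x|) ^ (-s) :=
    (continuous_const.add continuous_abs).rpow_const fun x =>
      Or.inl (add_pos_of_pos_of_nonneg one_pos (abs_nonneg x)).ne'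
  have bd : ∀ x : ℝ, |∫ u in (0 : ℝ)..x, (1 + |u|) ^ (-s)| ≤ ∫ u : ℝ, (1 + |u|) ^ (-s) := fun x => by
    rw [intervalIntegral.abs_integral_eq_abs_integral_uIoc,
      abs_of_nonneg (MeasureTheory.integral_nonneg fun u => Real.rpow_nonneg (by positivity) _)]
    exact MeasureTheory.setIntegral_le_integral hi (.of_forall fun u => Real.rpow_nonneg (by positivity) _)
  refine ⟨fun x => (∫ u in (0 : ℝ)..x, (1 + |u|) ^ (-s)) + ∫ u : ℝ, (1 + |u|) ^ (-s),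
    2 * ∫ u : ℝ, (1 + |u|) ^ (-s), fun x =>
      ⟨(hc.integral_hasStrictDerivAt 0 x).hasDerivAt.add_const _, ?_, ?_⟩⟩
  · linarith [(abs_le.1 (bd x)).1]
  · linarith [(abs_le.1 (bd x)).2]

/-- The data along a line: e' = l u; ph measures the distance from the tube, T is a time. -/
structure Ln (e u u' : ℝ → F) (l ph ph' T T' : ℝ → ℝ) (s0 s1 R : ℝ) : Prop where
  le : s0 ≤ s1
  der : ∀ s ∈ Icc s0 s1, 0 < l s ∧ HasDerivAt e (l s • u s) s ∧ HasDerivAt u (l s • u' s) s ∧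
    HasDerivAt ph (l s * ph' s) s ∧ HasDerivAt T (l s * T' s) s ∧ 0 ≤ ph' s ∧ 0 ≤ ph s ∧ ph s ≤ R

section
variable {e u u' : ℝ → F} {l ph ph' T T' : ℝ → ℝ} {s0 s1 R K ρ ε σ δ : ℝ}

theorem Ln.mono (h : Ln e u u' l ph ph' T T' s0 s1 R) {a b : ℝ} (h1 : s0 ≤ a) (h2 : a ≤ b)
    (h3 : b ≤ s1) : Ln e u u' l ph ph' T T' a b R :=
  ⟨h2, fun s hs => h.der s (Icc_subset_Icc h1 h3 hs)⟩

theorem Ln.ph_le (h : Ln e u u' l ph ph' T T' s0 s1 R) : MonotoneOn ph (Icc s0 s1) :=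
  monotoneOn_of_deriv_nonneg (convex_Icc _ _)
    (fun s hs => (h.der s hs).2.2.2.1.continuousAt.continuousWithinAt)
    (fun s hs => (h.der s (interior_subset hs)).2.2.2.1.differentiableAt.differentiableWithinAt)
    fun s hs => by
      obtain ⟨a, -, -, b, -, c, -⟩ := h.der s (interior_subset hs)
      rw [b.deriv]
      positivity

/-- Near the tube. -/
theorem Ln.tube (h : Ln e u u' l ph ph' T T' s0 s1 R) {H : ℝ → ℝ} {b : ℝ}
    (hH : ∀ x, HasDerivAt H ((1 + |x|) ^ (-σ)) x ∧ 0 ≤ H x ∧ H x ≤ b) (hK : 0 < K) (hε : 0 < ε)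
    (h1 : ∀ s ∈ Icc s0 s1, ‖e s‖ ≤ ρ → 1 / 2 ≤ T' s ∧
      ‖u s‖ ≤ K * (ε * (1 + |T s|) ^ (-σ) + ph' s * (‖e s‖ + ε)))
    (h0 : ‖e s0‖ ≤ δ) (hρ : (δ + ε + 4 * K * ε * b) * Real.exp (K * R) ≤ ρ) :
    ‖e s1‖ ≤ (δ + ε + 4 * K * ε * b) * Real.exp (K * R) := by
  have d0 := (norm_nonneg _).trans h0
  have top : ∀ s ∈ Icc s0 s1, (δ + ε + 4 * K * ε * H (T s)) * Real.exp (K * ph s) - ε ≤
      (δ + ε + 4 * K * ε * b) * Real.exp (K * R) := fun s hs => by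
    have := (hH (T s)).2
    refine (sub_le_self _ hε.le).trans (mul_le_mul (by gcongr; exact this.2) (by
      gcongr; exact (h.der s hs).2.2.2.2.2.2.2) (by positivity) ?_)
    have := this.1.trans this.2
    positivity
  refine (barrier (y := e) (B := fun s => (δ + ε + 4 * K * ε * H (T s)) * Real.exp (K * ph s) - ε)
    h.le (fun s hs => ?_) ?_).trans (top _ ⟨h.le, le_rfl⟩)
  · obtain ⟨a1, a2, -, a4, a5, a6, a7, -⟩ := h.der s hs
    refine ⟨_, _, a2, ((((((hH _).1.comp s a5).const_mul (4 * K * ε)).const_add (δ + ε)).mul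
      (a4.const_mul K).exp).sub_const ε), fun k => ?_⟩
    obtain ⟨b1, b2⟩ := h1 s hs (k.le.trans ((top s hs).trans hρ))
    have b3 : 1 ≤ Real.exp (K * ph s) := Real.one_le_exp (by positivity)
    have b4 : 0 < (1 + |T s|) ^ (-σ) := by positivity
    rw [norm_smul, Real.norm_of_nonneg a1.le]
    refine (mul_le_mul_of_nonneg_left b2 a1.le).trans_lt ?_
    simp only [Function.comp] at k ⊢
    rw [k, sub_add_cancel]
    have b5 : 0 < l s * K * ε * (1 + |T s|) ^ (-σ) := by positivity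
    have b6 : 1 < 4 * T' s * Real.exp (K * ph s) := by nlinarith
    nlinarith [mul_lt_mul_of_pos_left b6 b5]
  · have b3 : 1 ≤ Real.exp (K * ph s0) :=
      Real.one_le_exp (mul_nonneg hK.le (h.der s0 ⟨le_rfl, h.le⟩).2.2.2.2.2.2.1)
    have := (hH (T s0)).2.1
    have b4 : 0 ≤ 4 * K * ε * H (T s0) := by positivity
    nlinarith

/-- Away from the tube. -/
theorem Ln.far (h : Ln e u u' l ph ph' T T' s0 s1 R) (hK : 1 ≤ K) (hε : 0 < ε)
    (h2 : ∀ s ∈ Icc s0 s1, 1 / 4 ≤ ph' s ∧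
      (‖e s‖ ≤ ρ → ‖u s‖ ≤ ρ → ‖u' s‖ ≤ K * (‖e s‖ + ‖u s‖ + ε)))
    (h0 : ‖e s0‖ ≤ δ) (h0' : ‖u s0‖ ≤ δ) (hρ : (δ + ε) * Real.exp (9 * K * R) ≤ ρ) :
    ‖e s1‖ ≤ (δ + ε) * Real.exp (9 * K * R) := by
  have d0 := (norm_nonneg _).trans h0
  have top : ∀ s ∈ Icc s0 s1, (δ + ε) * Real.exp (9 * K * ph s) - ε ≤
      (δ + ε) * Real.exp (9 * K * R) := fun s hs =>
    (sub_le_self _ hε.le).trans (by gcongr; exact (h.der s hs).2.2.2.2.2.2.2)
  refine (norm_fst_le (e s1, u s1)).trans ((barrier (y := fun s => (e s, u s))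
    (B := fun s => (δ + ε) * Real.exp (9 * K * ph s) - ε) h.le (fun s hs => ?_) ?_).trans
    (top _ ⟨h.le, le_rfl⟩))
  · obtain ⟨a1, a2, a3, a4, -, a6, a7, -⟩ := h.der s hs
    refine ⟨_, _, a2.prodMk a3, ((a4.const_mul (9 * K)).exp.const_mul (δ + ε)).sub_const ε,
      fun k => ?_⟩
    have c1 := norm_fst_le (e s, u s)
    have c2 := norm_snd_le (e s, u s)
    have c3 := k.le.trans ((top s hs).trans hρ)
    obtain ⟨b1, b2⟩ := h2 s hs
    have b3 := b2 (c1.trans c3) (c2.trans c3)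
    have c4 := norm_nonneg (e s, u s)
    have c5 : (δ + ε) * Real.exp (9 * K * ph s) = ‖(e s, u s)‖ + ε := by linarith
    have c6 : ‖(u s, u' s)‖ < 9 * K * ph' s * (‖(e s, u s)‖ + ε) := by
      have : 9 / 4 * K * (‖(e s, u s)‖ + ε) ≤ 9 * K * ph' s * (‖(e s, u s)‖ + ε) :=
        mul_le_mul_of_nonneg_right (by nlinarith) (by linarith)
      refine lt_of_le_of_lt (max_le ?_ ?_ : _ ≤ 2 * K * (‖(e s, u s)‖ + ε)) (by nlinarith)
      · nlinarith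
      · nlinarith
    rw [← Prod.smul_mk, norm_smul, Real.norm_of_nonneg a1.le, ← mul_assoc, c5]
    nlinarith [mul_lt_mul_of_pos_left c6 a1]
  · have b3 : 1 ≤ Real.exp (9 * K * ph s0) :=
      Real.one_le_exp (mul_nonneg (by linarith) (h.der s0 ⟨le_rfl, h.le⟩).2.2.2.2.2.2.1)
    exact max_le (by nlinarith) (by nlinarith)

end

/-- The estimate along a whole line. -/
theorem line_bd {σ K R ρ : ℝ} (hσ : 1 < σ) (hK : 1 ≤ K) (hρ : 0 < ρ) : ∃ C, 1 ≤ C ∧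
    ∀ ε > 0, C * ε ≤ ρ → ∀ (e u u' : ℝ → F) l ph ph' T T' s0 s1 θ,
      Ln e u u' l ph ph' T T' s0 s1 R →
      (∀ s ∈ Icc s0 s1, ph s ≤ θ → ‖e s‖ ≤ ρ → ‖u s‖ ≤ ρ → 1 / 2 ≤ T' s ∧ ph' s ≤ 1 ∧
        ‖u s‖ ≤ K * (ε * (1 + |T s|) ^ (-σ) + ph' s * (‖e s‖ + ε))) →
      (∀ s ∈ Icc s0 s1, θ ≤ ph s → 1 / 4 ≤ ph' s ∧
        (‖e s‖ ≤ ρ → ‖u s‖ ≤ ρ → ‖u' s‖ ≤ K * (‖e s‖ + ‖u s‖ + ε))) →
      ‖e s0‖ ≤ ε → ‖u s0‖ ≤ ε → ‖e s1‖ ≤ C * ε := by
  obtain ⟨H, b, hH⟩ := ex_prim hσ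
  have b0 : 0 ≤ b := (hH 0).2.1.trans (hH 0).2.2
  have K0 : 0 < K := by linarith
  set C1 := (2 + 4 * K * b) * Real.exp (K * |R|)
  have c1 : 2 ≤ C1 := le_trans (by nlinarith)
    (le_mul_of_one_le_right (by positivity) (Real.one_le_exp (by positivity)))
  set C2 := K * (C1 + 2)
  have c2 : C1 + 2 ≤ C2 := le_mul_of_one_le_left (by linarith) hK
  have c3 : 1 ≤ Real.exp (9 * K * |R|) := Real.one_le_exp (by positivity)
  have c4 : C2 + 1 ≤ (C2 + 1) * Real.exp (9 * K * |R|) := le_mul_of_one_le_right (by linarith) c3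
  refine ⟨(C2 + 1) * Real.exp (9 * K * |R|), by linarith, ?_⟩
  intro ε hε hc e u u' l ph ph' T T' s0 s1 θ h0 h1 h2 i1 i2
  have h : Ln e u u' l ph ph' T T' s0 s1 |R| := ⟨h0.le, fun s hs => by
    obtain ⟨a1, a2, a3, a4, a5, a6, a7, a8⟩ := h0.der s hs
    exact ⟨a1, a2, a3, a4, a5, a6, a7, a8.trans (le_abs_self R)⟩⟩
  have q1 : C1 * ε ≤ ρ := by nlinarith
  have q2 : C2 * ε < ρ := by nlinarith
  have st : ∀ t ∈ Icc s0 s1, ph t ≤ θ → (∀ s ∈ Icc s0 t, ‖u s‖ ≤ ρ) →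
      ‖e t‖ ≤ C1 * ε ∧ ‖u t‖ ≤ C2 * ε := fun t ht k1 k2 => by
    have sub : Icc s0 t ⊆ Icc s0 s1 := Icc_subset_Icc_right ht.2
    have k3 := fun s hs => h1 s (sub hs) ((h.ph_le (sub hs) ht hs.2).trans k1)
    have e1 : (ε + ε + 4 * K * ε * b) * Real.exp (K * |R|) = C1 * ε := by ring
    have k4 := (h.mono le_rfl ht.1 ht.2).tube hH K0 hε
      (fun s hs k => ⟨(k3 s hs k (k2 s hs)).1, (k3 s hs k (k2 s hs)).2.2⟩) i1 (e1 ▸ q1)
    rw [e1] at k4
    obtain ⟨-, k5, k6⟩ := k3 t ⟨ht.1, le_rfl⟩ (k4.trans q1) (k2 t ⟨ht.1, le_rfl⟩)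
    have k7 : (1 + |T t|) ^ (-σ) ≤ 1 :=
      Real.rpow_le_one_of_one_le_of_nonpos (by linarith [abs_nonneg (T t)]) (by linarith)
    refine ⟨k4, k6.trans ?_⟩
    rw [mul_assoc]
    refine mul_le_mul_of_nonneg_left ?_ K0.le
    nlinarith [mul_le_mul_of_nonneg_left k7 hε.le, mul_le_mul_of_nonneg_right k5
      (add_nonneg (norm_nonneg (e t)) hε.le)]
  have st2 : ∀ t ∈ Icc s0 s1, ph t ≤ θ → ‖e t‖ ≤ C1 * ε ∧ ‖u t‖ ≤ C2 * ε := fun t ht k1 => by
    refine st t ht k1 fun s hs => ?_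
    have sub : Icc s0 s ⊆ Icc s0 s1 := Icc_subset_Icc_right (hs.2.trans ht.2)
    have cu : ContinuousOn (fun v => ‖u v‖) (Icc s0 s) := fun v hv =>
      (h.der v (sub hv)).2.2.1.continuousAt.norm.continuousWithinAt
    by_contra! n
    have cl : IsCompact (Icc s0 s ∩ (fun v => ‖u v‖) ⁻¹' Ici ρ) := isCompact_Icc.of_isClosed_subset
      (cu.preimage_isClosed_of_isClosed isClosed_Icc isClosed_Ici) inter_subset_left
    obtain ⟨τ, ⟨t1, t2⟩, t3⟩ := cl.exists_isLeast ⟨s, ⟨hs.1, le_rfl⟩, n.le⟩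
    have t4 : ∀ v ∈ Ico s0 τ, ‖u v‖ ≤ ρ := fun v hv => le_of_not_gt fun k =>
      absurd (t3 ⟨⟨hv.1, hv.2.le.trans t1.2⟩, k.le⟩) (not_le.2 hv.2)
    have t5 : ‖u τ‖ ≤ ρ := by
      rcases t1.1.eq_or_lt with k | k
      · rw [← k]; nlinarith
      · have : (𝓝[Ico s0 τ] τ).NeBot := right_nhdsWithin_Ico_neBot k
        exact le_of_tendsto ((h.der τ (sub t1)).2.2.1.continuousAt.norm.tendsto.mono_left
          (nhdsWithin_le_nhds (s := Ico s0 τ))) (eventually_nhdsWithin_of_forall t4)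
    have := (st τ (sub t1) ((h.ph_le (sub t1) ht (t1.2.trans hs.2)).trans k1) fun v hv =>
      hv.2.eq_or_lt.elim (fun k => k ▸ t5) fun k => t4 v ⟨hv.1, k⟩).2
    exact absurd (this.trans_lt q2) (not_lt.2 t2)
  have fin : ∀ t ∈ Icc s0 s1, θ ≤ ph t → ‖e t‖ ≤ C2 * ε → ‖u t‖ ≤ C2 * ε →
      ‖e s1‖ ≤ (C2 + 1) * Real.exp (9 * K * |R|) * ε := fun t ht k1 k2 k3 => by
    have e1 : (C2 * ε + ε) * Real.exp (9 * K * |R|) = (C2 + 1) * Real.exp (9 * K * |R|) * ε := by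
      ring
    exact e1 ▸ (h.mono ht.1 ht.2 le_rfl).far hK hε (fun s hs =>
      have m : s ∈ Icc s0 s1 := ⟨ht.1.trans hs.1, hs.2⟩
      h2 s m (k1.trans (h.ph_le ht m hs.1))) k2 k3 (e1 ▸ hc)
  have m0 : s0 ∈ Icc s0 s1 := ⟨le_rfl, h.le⟩
  have m1 : s1 ∈ Icc s0 s1 := ⟨h.le, le_rfl⟩
  rcases le_total θ (ph s0) with k | k
  · exact fin s0 m0 k (by nlinarith) (by nlinarith)
  rcases le_total (ph s1) θ with k' | k'
  · exact (st2 s1 m1 k').1.trans (by nlinarith)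
  obtain ⟨t, ht, e1⟩ := intermediate_value_Icc h.le
    (fun s hs => (h.der s hs).2.2.2.1.continuousAt.continuousWithinAt) ⟨k, k'⟩
  exact fin t ht e1.ge ((st2 t ht e1.le).1.trans (by nlinarith)) (st2 t ht e1.le).2

/-- Lipschitz bounds and open conditions near a compact set. -/
theorem lip_near [FiniteDimensional ℝ E] {K : Set E} (hK : IsCompact K) {Φ : E → F} {Q : E → Prop}
    (h : ∀ z ∈ K, ContDiffAt ℝ 1 Φ z ∧ ∀ᶠ y in 𝓝 z, Q y) : ∃ ρ > 0, ∃ L, 1 ≤ L ∧ ∀ z ∈ K, ∀ y,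
      ‖y - z‖ ≤ ρ → Q y ∧ ‖Φ y‖ ≤ L ∧ ∀ y', ‖y' - z‖ ≤ ρ → ‖Φ y - Φ y'‖ ≤ L * ‖y - y'‖ := by
  have : ProperSpace E := .of_locallyCompactSpace ℝ
  obtain ⟨ρ, r0, hρ⟩ := hK.exists_cthickening_subset_open
    (t := interior {y | ContDiffAt ℝ 1 Φ y ∧ Q y}) isOpen_interior fun z hz =>
      mem_interior_iff_mem_nhds.2 (((h z hz).1.eventually (by simp)).and (h z hz).2)
  have k : ∀ y ∈ Metric.cthickening ρ K, ContDiffAt ℝ 1 Φ y ∧ Q y := fun y hy =>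
    interior_subset (s := {y | ContDiffAt ℝ 1 Φ y ∧ Q y}) (hρ hy)
  obtain ⟨A, hA⟩ := (hK.cthickening (r := ρ)).exists_bound_of_continuousOn (f := fderiv ℝ Φ)
    fun y hy => ((k y hy).1.continuousAt_fderiv one_ne_zero).continuousWithinAt
  obtain ⟨B, hB⟩ := (hK.cthickening (r := ρ)).exists_bound_of_continuousOn (f := Φ)
    fun y hy => (k y hy).1.continuousAt.continuousWithinAt
  have sub : ∀ z ∈ K, Metric.closedBall z ρ ⊆ Metric.cthickening ρ K := fun z hz =>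
    Metric.closedBall_subset_cthickening hz ρ
  refine ⟨ρ, r0, max 1 (max A B), le_max_left _ _, fun z hz y hy => ?_⟩
  have m := sub z hz (mem_closedBall_iff_norm.2 hy)
  refine ⟨(k y m).2, (hB y m).trans (by simp), fun y' hy' => ?_⟩
  exact (convex_closedBall z ρ).norm_image_sub_le_of_norm_fderiv_le
    (fun x hx => (k x (sub z hz hx)).1.differentiableAt one_ne_zero)
    (fun x hx => (hA x (sub z hz hx)).trans (by simp)) (mem_closedBall_iff_norm.2 hy')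
    (mem_closedBall_iff_norm.2 hy)

set_option maxSynthPendingDepth 3 in
/-- Interpolation along a segment. -/
theorem interp {f : E → F} {p v : E} {t ε C : ℝ} (ht : 0 < t)
    (h : ∀ s ∈ Icc 0 t, ContDiffAt ℝ 2 f (p + s • v) ∧ ‖f (p + s • v)‖ ≤ ε ∧
      ‖fderiv ℝ (fderiv ℝ f) (p + s • v)‖ ≤ C) :
    ‖fderiv ℝ f p v‖ ≤ 2 * ε / t + C * ‖v‖ ^ 2 * t := by
  have l : ∀ s : ℝ, HasDerivAt (fun s : ℝ => p + s • v) v s := fun s => by
    simpa using ((hasDerivAt_id s).smul_const v).const_add p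
  have C0 : 0 ≤ C := (norm_nonneg _).trans (h 0 ⟨le_rfl, ht.le⟩).2.2
  have k1 : ∀ s ∈ Icc 0 t, ‖fderiv ℝ f (p + s • v) - fderiv ℝ f p‖ ≤ C * ‖v‖ * t := fun s hs => by
    have := norm_image_sub_le_of_norm_deriv_le_segment' (a := 0) (b := t) (C := C * ‖v‖)
      (f := fun s : ℝ => fderiv ℝ f (p + s • v)) (fun u hu => (((((h u hu).1.fderiv_right
        (m := 1) le_rfl).differentiableAt one_ne_zero).hasFDerivAt.comp_hasDerivAt u
        (l u)).hasDerivWithinAt)) (fun u hu => (ContinuousLinearMap.le_opNorm _ _).trans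
          (mul_le_mul_of_nonneg_right (h u (Ico_subset_Icc_self hu)).2.2 (norm_nonneg _))) s hs
    simp only [zero_smul, add_zero, sub_zero] at this
    exact this.trans (mul_le_mul_of_nonneg_left hs.2 (by positivity))
  have k2 := norm_image_sub_le_of_norm_deriv_le_segment' (a := 0) (b := t) (C := C * ‖v‖ ^ 2 * t)
    (f := fun s : ℝ => f (p + s • v) - s • fderiv ℝ f p v)
    (f' := fun s => (fderiv ℝ f (p + s • v) - fderiv ℝ f p) v) (fun u hu =>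
      (((((h u hu).1.differentiableAt two_ne_zero).hasFDerivAt.comp_hasDerivAt u (l u)).sub
        ((hasDerivAt_id u).smul_const (fderiv ℝ f p v))).congr_deriv (by simp)).hasDerivWithinAt)
    (fun u hu => (ContinuousLinearMap.le_opNorm _ _).trans ((mul_le_mul_of_nonneg_right
      (k1 u (Ico_subset_Icc_self hu)) (norm_nonneg _)).trans_eq (by ring))) t ⟨ht.le, le_rfl⟩
  simp only [zero_smul, add_zero, sub_zero] at k2
  have k3 := (h 0 ⟨le_rfl, ht.le⟩).2.1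
  rw [zero_smul, add_zero] at k3
  have k4 : ‖t • fderiv ℝ f p v‖ ≤ 2 * ε + C * ‖v‖ ^ 2 * t * t := by
    have e : t • fderiv ℝ f p v =
        f (p + t • v) - f p - (f (p + t • v) - t • fderiv ℝ f p v - f p) := by abel
    rw [e]
    linarith [norm_sub_le (f (p + t • v) - f p) (f (p + t • v) - t • fderiv ℝ f p v - f p),
      norm_sub_le (f (p + t • v)) (f p), (h t ⟨ht.le, le_rfl⟩).2.1]
  rw [norm_smul, Real.norm_of_nonneg ht.le] at k4
  rw [div_add' _ _ _ ht.ne', le_div_iff₀ ht]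
  linarith

end Vale.Agent.P354BK
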