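import Vale.Agent.P354BK.Defs
import Vale.Agent.P354XV.First
import Vale.Agent.P354YA.Boot

/-!
HIGH: bounds of high order in the scaffold. The exact statement.
-/

open scoped ContDiff
open Set Filter Topology

noncomputable section

namespace Vale.Agent.P354BK

open Vale.Agent.P354XD (pj)
open Vale.Agent.P354XE (Tw Bd gin)
open Vale.Agent.P354YT (Pm)
open Vale.Agent.P354YA (Ok2 Zs eta)

/-- HIGH: closeness to Kerr at the low order k0, decay of the jets of order L0 of P0 and P4, and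
closeness of order m0 on the collar give bounds of order n. -/
def HIGH : Prop :=
  ∃ k0 : ℕ, ∀ n : ℕ, ∃ L0 m0 : ℕ, ∀ (c : Pm) (κ : ℝ), Ok2 c → ∃ E1 > 0, ∃ C, ∀ V g,
    (∀ p ∈ Zc c (fun _ => 0) V, P354XV.Fst c κ g p ∧ Bd k0 (g - gin c.M c.a) p E1 ∧
      (c.psi p < 0 → Bd m0 (g - gin c.M c.a) p E1)) →
    (∀ x ∈ Zs c.sc c.Rs, c.tau (pj x) < V →
      eta c.M c.a L0 g x ≤ (E1 * (1 + |x.1|) ^ (-(7 / 5) : ℝ)) ^ 2) →
    ∀ p ∈ Zo c (fun _ => 0) V, Bd n g p C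

end Vale.Agent.P354BK
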