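import Vale.Agent.P354BK.Pt

/-!
BACK, fourth part: the estimate along the lines of X.
-/

open scoped ContDiff
open Set Filter Topology

noncomputable section

namespace Vale.Agent.P354BK

open Vale.Agent.P354n (R4)
open Vale.Agent.P354XE (Tw Bd gin rd eT dr)
open Vale.Agent.P354XV (Gq)
open Vale.Agent.P354XA (rd_cont rd_cd rd_fd)
open Vale.Agent.P354YT
open Vale.Agent.P354YN (KERR NATU)
open Vale.Agent.P354YO (bd_mono)

variable {c : Pm} {N : P354XV.Nat} {ν : ℝ → ℝ} {V : ℝ} {p : R4}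

theorem col_t (h : c.Ok) : ∃ T0, 0 ≤ T0 ∧ ∀ p ∈ c.O, rd p ≤ c.Rs → c.psi p ≤ 0 → |p.1| ≤ T0 := by
  have r0 : 0 < c.Rs := by linarith [h.r10, h.lt, h.Rs]
  refine ⟨|c.be 0| + |c.be c.Rs| + c.Rs, by positivity, fun p hp h1 h2 => abs_le.2 ⟨?_, ?_⟩⟩
  · linarith [h.be_le hp.1 hp.2.le, h.be_mono (h.pos hp.1).le, neg_abs_le (c.be 0),
      abs_nonneg (c.be c.Rs)]
  · have a1 := (h.psi_lt (h.pos hp.1) 1).1 (by linarith)
    have a2 := mul_le_mul h.del.2 h1 (h.pos hp.1).le (by norm_num)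
    linarith [h.be_mono h1, le_abs_self (c.be c.Rs), abs_nonneg (c.be 0)]

/-- The line of X through p starts on the top of the collar and stays in the region. -/
theorem ray (h : c.Ok) (hν : Nu c ν) (hp : p ∈ Zo c ν V) (h0 : 0 ≤ c.psi p) :
    ∃ (γ : ℝ → R4) (l : ℝ → ℝ) (σ s0 : ℝ), s0 ≤ 0 ∧ γ 0 = p ∧ c.psi (γ s0) = 0 ∧
      (σ = 1 ∨ σ = -1) ∧ ∀ s ∈ Icc s0 0, γ s ∈ Zo c ν V ∧ 0 < l s ∧
        HasDerivAt γ (l s • c.X (γ s)) s ∧ 0 ≤ σ * (rd (γ s) - c.R1) := by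
  obtain ⟨Φ, i⟩ := h.ex_inv
  obtain ⟨c0, c1, c2⟩ := h.lam_pos
  have hq := h.Psi_map hp.1.1
  have e0 : Φ (c.Psi p + (0 : ℝ) • eT) = p := by rw [zero_smul, add_zero, i.left p hp.1.1]
  have mD := fun s => i.map (P0_sh hq s)
  obtain ⟨s1, a1, a2⟩ := (((h.exit i hq).eventually_le_atBot 0).and
    (eventually_le_atBot 0)).exists
  obtain ⟨s0, b1, b2⟩ := intermediate_value_Icc a2
    (f := fun s : ℝ => c.psi (Φ (c.Psi p + s • eT))) (fun s _ => ((h.psi_cd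
      (h.pos (mD s))).continuousAt.comp (f := fun s : ℝ => Φ (c.Psi p + s • eT))
        (h.ga_d i hq s).continuousAt).continuousWithinAt) ⟨a1, h0.trans_eq (congrArg _ e0.symm)⟩
  have sd : ∃ σ : ℝ, (σ = 1 ∨ σ = -1) ∧ ∀ s : ℝ, 0 ≤ σ * (rd (Φ (c.Psi p + s • eT)) - c.R1) := by
    have k := fun s => h.side i (P0_sh hq s)
    simp only [rd_sh] at k
    rcases lt_or_ge (rd (c.Psi p)) 1 with k1 | k1
    · exact ⟨-1, .inr rfl, fun s => by linarith [(k s).2.1 k1]⟩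
    · exact ⟨1, .inl rfl, fun s => by
        linarith [not_lt.1 fun e => k1.not_gt ((k s).2.2 e)]⟩
  obtain ⟨σ, s1, s2⟩ := sd
  refine ⟨fun s => Φ (c.Psi p + s • eT), fun s => (c.lam (Φ (c.Psi p + s • eT)))⁻¹, σ, s0, b1.2,
    e0, b2, s1, fun s hs => ⟨?_, inv_pos.2 (c1.trans_le (c2 _ (mD s))), h.ga_d i hq s, s2 s⟩⟩
  have k1 : 0 ≤ c.psi (Φ (c.Psi p + s • eT)) := by
    rcases hs.1.eq_or_lt with k | k
    · exact k ▸ b2.ge
    · have := h.col i ⟨by norm_num, zero_le_one⟩ (P0_sh hq s0) b2.ge (sub_pos.2 k)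
      rw [add_assoc, ← add_smul, add_sub_cancel] at this
      exact this.le
  have k2 : |rd (Φ (c.Psi p + s • eT)) - c.R1| ≤ |rd p - c.R1| :=
    (h.rad i hq hs.2).trans_eq (congrArg (fun x => |rd x - c.R1|) e0)
  have k3 := s2 s
  have k4 := s2 0
  rw [e0] at k4
  have k5 : c.tau (Φ (c.Psi p + s • eT)) = c.tau p + s := Pm.tau_ga i hq s
  have k6 : rd (Φ (c.Psi p + s • eT)) < c.Rs ∧ ν (rd (Φ (c.Psi p + s • eT))) ≤ ν (rd p) := by
    rcases s1 with rfl | rfl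
    · rw [abs_of_nonneg (by linarith), abs_of_nonneg (by linarith)] at k2
      exact ⟨by linarith [hp.2.2.1], hν.mono (by linarith)⟩
    · exact ⟨by linarith [h.Rs], by rw [hν.zero _ (by linarith), hν.zero _ (by linarith)]⟩
  exact ⟨⟨mD s, by linarith⟩, by linarith, k6.1, by linarith [hp.2.2.2, hs.2, k6.2]⟩

theorem rr_out (h : c.Ok) {σ r : ℝ} (s : σ = 1 ∨ σ = -1) (k : 0 ≤ σ * (r - c.R1)) :
    |r - c.R1| = σ * (r - c.R1) ∧ 0 ≤ σ * c.rr r ∧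
      (1 / (4 * c.k) ≤ σ * (r - c.R1) → 1 / 4 ≤ σ * c.rr r) := by
  have k0 := h.k0
  have e : ∀ x, 1 / (4 * c.k) ≤ x → 1 / 4 ≤ c.k * x := fun x hx => by
    rw [div_le_iff₀ (by positivity)] at hx
    linarith
  rcases s with rfl | rfl
  · rw [one_mul] at k
    simp only [one_mul]
    refine ⟨abs_of_nonneg k, (h.rr_sign r).1 (by linarith), fun hx => ?_⟩
    rw [Pm.rr, ← rt_mul]
    exact rr_ge (e _ hx)
  · simp only [neg_mul, one_mul] at k ⊢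
    refine ⟨abs_of_nonpos (by linarith), neg_nonneg.2 ((h.rr_sign r).2 (by linarith)), fun hx => ?_⟩
    have := rr_ge (e _ hx)
    rw [mul_neg, neg_neg] at this
    rw [Pm.rr, ← rt_mul, neg_sub]
    exact this

/-- The chart is close to a dilation of the time. -/
theorem line (hK : KERR) (hN : NATU) (h : c.Ok) (T : Tau c) (G : Gau c N) (hν : Nu c ν) {s : ℝ}
    (hs : 1 < s) : ∃ ε0 > 0, ∃ K, 1 ≤ K ∧ ∀ ε ∈ Ioc 0 ε0, ∀ C V g a gt M' a',
      Lk c (Zo c ν V) (max N.m 3) s C ε g a gt M' a' →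
      (∀ p ∈ Zo c ν V, Gq N p g c.X p ∧ Fst c g p) →
      ∃ κ t0, |κ - 1| ≤ K * ε ∧ ∀ p ∈ Zo c ν V, ‖ee κ t0 a p‖ ≤ K * ε := by
  obtain ⟨ρ, r0, K, k1, H⟩ := pt_est hK hN h T G (zero_le_one.trans hs.le)
  obtain ⟨C1, c1, L⟩ := line_bd (F := R4) (R := c.Rs) hs k1 r0
  obtain ⟨B, b1, hB⟩ := X_bd h
  obtain ⟨T0, t1, hT⟩ := col_t h
  have m0 := h.M0
  have m1 : 0 < 2 / c.M := by positivity
  obtain ⟨A, a1, a2, a3, a4⟩ : ∃ A, 1 ≤ A ∧ 2 / c.M ≤ A ∧ 1 + 2 / c.M * T0 ≤ A ∧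
      B + 2 / c.M * B ≤ A := by
    have : 0 ≤ 2 / c.M * T0 := by positivity
    have : 0 ≤ 2 / c.M * B := by positivity
    exact ⟨2 / c.M + (1 + 2 / c.M * T0) + (B + 2 / c.M * B), by linarith, by linarith,
      by linarith, by linarith⟩
  have ca : A ≤ C1 * A := le_mul_of_one_le_left (by linarith) c1
  refine ⟨min (c.M / 2) (ρ / ((C1 + K) * A)), by positivity, C1 * A, a1.trans ca, ?_⟩
  intro ε ⟨e0, e1⟩ C V g a gt M' a' lk hg
  obtain ⟨e1, e2⟩ := le_min_iff.1 e1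
  rw [le_div_iff₀' (by positivity), mul_assoc, add_mul] at e2
  obtain ⟨κ, κ0, κ1, κ2⟩ := ex_ka m0 ((le_add_of_nonneg_right (abs_nonneg _)).trans lk.par) e1
  obtain ⟨t0, ini⟩ := lk.ini
  obtain ⟨W, Wt, sub, u, lv⟩ := lk.pull
  have f0 : 0 < A * ε := by positivity
  have f1 : ε ≤ A * ε := le_mul_of_one_le_left e0.le a1
  have f2 : |κ - 1| ≤ A * ε := κ2.trans (mul_le_mul_of_nonneg_right a2 e0.le)
  have f3 : A * ε ≤ C1 * A * ε := mul_le_mul_of_nonneg_right ca e0.le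
  have f4 : C1 * (A * ε) ≤ ρ := (le_add_of_nonneg_right (by positivity)).trans e2
  have f5 : K * (A * ε) ≤ ρ := (le_add_of_nonneg_left (by positivity)).trans e2
  have P : ∀ p ∈ Zo c ν V, Pt c N s (A * ε) κ g a gt M' a' p := fun p hp =>
    ⟨⟨W, Wt, sub hp, u, lv⟩, lk.det p hp, lk.par.trans f1, bd_mono (lk.near p hp) le_rfl
      (mul_le_mul_of_nonneg_right f1 (by positivity)), ⟨κ0, κ1, f2⟩, ⟨hp.1.1.le, hp.2.2.1.le⟩,
      (hg p hp).1, (hg p hp).2⟩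
  have I : ∀ p ∈ Zo c ν V, c.psi p ≤ 0 → ‖ee κ t0 a p‖ ≤ A * ε ∧ ‖uu c κ a p‖ ≤ A * ε :=
    fun p hp h0 => by
      obtain ⟨i1, i2⟩ := ini p hp h0
      have x := hB p hp.1.1.le hp.2.2.1.le
      constructor
      · rw [show ee κ t0 a p = a p - p - t0 • eT - (La κ p - p) by rw [ee]; abel]
        refine (norm_sub_le_of_le i1 ((La_t κ p).trans_le (mul_le_mul κ2
          (hT p hp.1 hp.2.2.1.le h0) (abs_nonneg _) (by positivity)))).trans ?_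
        nlinarith
      · rw [show uu c κ a p = (fderiv ℝ a p - ContinuousLinearMap.id ℝ R4) (c.X p) -
          (La κ (c.X p) - c.X p) by simp [uu]]
        refine (norm_sub_le_of_le ((ContinuousLinearMap.le_of_opNorm_le_of_le _ i2 x))
          ((La_sub κ _).trans (mul_le_mul κ2 x (norm_nonneg _) (by positivity)))).trans ?_
        nlinarith
  refine ⟨κ, t0, f2.trans f3, fun p hp => ?_⟩
  rcases le_total (c.psi p) 0 with h0 | h0
  · exact (I p hp h0).1.trans f3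
  obtain ⟨γ, l, σ, s0, g1, g2, g3, g4, g5⟩ := ray h hν hp h0
  have m : s0 ∈ Icc s0 0 := ⟨le_rfl, g1⟩
  have := L (A * ε) f0 f4 (fun x => ee κ t0 a (γ x)) (fun x => uu c κ a (γ x))
    (fun x => fderiv ℝ (uu c κ a) (γ x) (c.X (γ x))) l (fun x => σ * (rd (γ x) - c.R1))
    (fun x => σ * c.rr (rd (γ x))) (fun x => (a (γ x)).1)
    (fun x => (fderiv ℝ a (γ x) (c.X (γ x))).1) s0 0 (1 / (4 * c.k)) ⟨g1, fun x hx => ?_⟩
    (fun x hx j1 j2 j3 => ?_) (fun x hx j1 => ?_) (I _ (g5 s0 m).1 g3.le).1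
    (I _ (g5 s0 m).1 g3.le).2
  · rw [g2, ← mul_assoc] at this
    exact this
  · obtain ⟨z, l0, d, sg⟩ := g5 x hx
    have da := (P _ z).cd.differentiableAt (by simp)
    have p0 := (h.pos z.1.1).ne'
    obtain ⟨q1, q2, -⟩ := rr_out h g4 sg
    refine ⟨l0, ((ee_fd da).comp_hasDerivAt x d).congr_deriv (map_smul _ _ _),
      (((P _ z).cu h).differentiableAt.hasFDerivAt.comp_hasDerivAt x d).congr_deriv
        (map_smul _ _ _), ((((rd_cd (n := 1) p0).differentiableAt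
          one_ne_zero).hasFDerivAt.comp_hasDerivAt x d).sub_const _).const_mul σ |>.congr_deriv ?_,
      (da.hasFDerivAt.fst.comp_hasDerivAt x d).congr_deriv (map_smul _ _ _), q2, sg, ?_⟩
    · rw [map_smul, rd_fd p0, Pm.X_dr c p0, smul_eq_mul, mul_left_comm]
    · rw [← q1]
      exact abs_le.2 ⟨by linarith [h.pos z.1.1, h.Rs],
        by linarith [z.2.2.1, h.r10, h.lt]⟩
  · obtain ⟨z, -, -, sg⟩ := g5 x hx
    obtain ⟨q1, q2, -⟩ := rr_out h g4 sg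
    have ht := q1.trans_le j1
    obtain ⟨t2, t3, -⟩ := tube_x h ht
    obtain ⟨y1, y2⟩ := (H _ _ t0 _ _ _ _ _ _ (P _ z) f5 j2 j3).1 ht
    have e : σ * c.rr (rd (γ x)) = |c.xi (rd (γ x))| := by
      rw [xi_abs h, q1, t3, Pm.xi, mul_left_comm]
    exact ⟨y1, by linarith, e ▸ y2⟩
  · obtain ⟨z, -, -, sg⟩ := g5 x hx
    exact ⟨(rr_out h g4 sg).2.2 j1, fun j2 j3 => (H _ _ t0 _ _ _ _ _ _ (P _ z) f5 j2 j3).2⟩

end Vale.Agent.P354BK
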