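import Vale.Agent.P354HI.Defs
import Vale.Agent.P354XO.Fam
import Vale.Agent.P354BK.Line

/-!
LINES: the lines of X in the bundle of dyads.
-/

open scoped ContDiff
open Set Filter Topology Complex

noncomputable section

namespace Vale.Agent.P354BK

open Vale.Agent.P354n (R4)
open Vale.Agent.P354RC (cv)
open Vale.Agent.P354XG Vale.Agent.P354XD Vale.Agent.P354XR
open Vale.Agent.P354XE (Tw rd eT dr)
open Vale.Agent.P354XA (rd_cont rd_cd rd_fd)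
open Vale.Agent.P354YA (Zs dd ne_of_nq)
open Vale.Agent.P354YT
open Vale.Agent.P354HI hiding Ln Pt

/-- On functions of the base every field acts through its projection. -/
theorem base {A : Type} [CommRing A] [Algebra ℂ A] {K : Hp A} (h : K.Is) (a : Fin 6 → A) {f : A}
    (h1 : K.H f = 0) (h2 : K.B f = 0) :
    (∑ i, a i • K.d i) f = ∑ d, (∑ i, a i • K.d i) (K.co d) * K.L d f := by
  have n := h.hN
  have e : ∑ i, a i • K.d i = K.kc.V (a 0) (a 1) (K.Ni * (K.z 2 * a 3 - K.z 3 * a 2))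
      (K.Ni * (K.z 4 * a 5 - K.z 5 * a 4)) (K.Ni * (K.z 4 * a 2 + K.z 5 * a 3))
      (K.Ni * (K.z 2 * a 4 + K.z 3 * a 5)) := by
    ext f
    rw [Hp.N] at n
    simp [KC.V_ap, Hp.kc, Hp.P_ap, Hp.Q_ap, Hp.H_ap, Hp.B_ap, Fin.sum_univ_six]
    linear_combination -(a 2 * K.d 2 f + a 3 * K.d 3 f + a 4 * K.d 4 f + a 5 * K.d 5 f) * n
  rw [e, ← h.act_prj 0 0, Geo.act_apply]
  simp [Hp.geo, h1, h2, Hp.prj, Geo.dv]

variable {K : Tw → Set E6}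

theorem ev_at {Q : Tw × E6 → Prop} (e : ∀ᶠ p in nb ⊤ K, Q p) (p : Pz K) : Q p.1 :=
  eventually_top.1 (ev_nb_on e) p.1.1 p.1.2 p.2

/-- The chain rule at a point. -/
theorem chain (h : Pos (nb ⊤ K)) {f : Sm (nb ⊤ K)} (hf : Bs K f) (p : Pz K) (v : E6) :
    fderiv ℝ (sl (rep f) p.1.1) p.1.2 v =
      ∑ d, (cv d (fderiv ℝ pj p.1.2 v) : ℂ) * ev K p ((hp _).L d f) := by
  have e := base (hp_is h.off) (fun i => pd v ((hp (nb ⊤ K)).z i)) hf.1 hf.2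
  rw [← P354XO.VF.eq_z (P354XO.vf_pd v)] at e
  have e1 := congrArg (ev K p) e
  rw [map_sum] at e1
  refine (ev_pz K (rep_pd v f) p).symm.trans (e1.trans (Finset.sum_congr rfl fun d _ => ?_))
  rw [map_mul]
  refine congrArg (· * _) ((ev_pz K ((rs_co h.off d).pd v) p).trans ?_)
  have k := ((cd_pj (ev_at h p).2).differentiableAt (by simp)).hasFDerivAt
  exact DFunLike.congr_fun
    (ofRealCLM.hasFDerivAt.comp p.1.2 ((cv d).hasFDerivAt.comp p.1.2 k)).fderiv v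

variable {c : Pm}

theorem ev_vk (h : c.Ok) (hK : Pos (nb ⊤ K)) (p : Pz K) (d : Fin 4) :
    ev K p (vk (nb ⊤ K) c.X d) = cv d (c.X (pj p.1.2)) :=
  ev_pz K (rs_pb hK.off (f := fun _ p => cv d (c.X p)) (hK.mono fun _ e =>
    (cv d).contDiff.contDiffAt.comp _ (h.X_cd (e.1.trans_eq (rd_pj e.1 e.2).symm)))) p

/-- A segment of a line of X, lifted to the bundle, which ends at x. -/
structure Sg0 (c : Pm) (W : Set ℝ) (St : E6 → Prop) (b : E6 → ℝ) (B : ℝ) (x : E6) (T : ℝ)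
    (ξ : ℝ → E6) : Prop where
  le : 0 ≤ T
  fin : ξ T = x
  ini : St (ξ 0)
  inn : ∀ s ∈ Icc 0 T, ξ s ∈ Zs c.sc c.Rs ∧ c.tau (pj (ξ s)) ≤ c.tau (pj x) ∧ dd c (pj (ξ s)) ∈ W
  der : ∀ s, ∃ v, HasDerivAt ξ v s ∧
    fderiv ℝ pj (ξ s) v = (c.lam (pj (ξ s)))⁻¹ • c.X (pj (ξ s))
  int : ∃ β β' : ℝ → ℝ, (∀ s ∈ Icc 0 T, HasDerivAt β (β' s) s ∧
    (c.lam (pj (ξ s)))⁻¹ * b (ξ s) ≤ β' s) ∧ β T - β 0 ≤ B

theorem mk_ln (h : c.Ok) (hK : Pos (nb ⊤ K)) {X : Sm (nb ⊤ K) → Sm (nb ⊤ K)}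
    (hX : ∀ f, Bs K f → X f = ∑ d, vk (nb ⊤ K) c.X d * (hp _).L d f) {κ s B : ℝ} {k L m : ℕ}
    {W : Set ℝ} {St : E6 → Prop} {b : E6 → ℝ} (b0 : ∀ x, 0 ≤ b x)
    (H : ∀ x ∈ Zs c.sc c.Rs, dd c (pj x) ∈ W → ∃ T ξ, Sg0 c W St b B x T ξ)
    (e : ∀ᶠ p in l0 c κ k L m s W, p.2 ∈ K p.1) :
    ∃ Λ : P354HI.Ln (ev K) (comap Subtype.val (l0 c κ k L m s W))
      (comap Subtype.val (l0 c κ k L m s W ⊓ 𝓟 {p | St p.2})) X (Bs K),
      Λ.Int fun p => b p.1.2 := by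
  classical
  choose! T ξ H using H
  obtain ⟨c0, c1, c2⟩ := h.lam_pos
  have z : ∀ᶠ p in l0 c κ k L m s W, p.2 ∈ Zs c.sc c.Rs ∧ dd c (pj p.2) ∈ W :=
    mem_iInf_of_mem 1 (mem_iInf_of_mem (mem_Ioi.2 one_pos) (mem_principal.2
      fun p ⟨_, _, a1, _, a2⟩ => ⟨a1, a2⟩))
  have sg := z.mono fun p a => H p.2 a.1 a.2
  have st : (l0 c κ k L m s W).bind (fun p => 𝓟 ((fun t => (p.1, ξ p.2 t)) '' Icc 0 (T p.2))) ≤
      l0 c κ k L m s W := le_iInf₂ fun e he => le_principal_iff.2 (mem_bind'.2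
    (mem_iInf_of_mem e (mem_iInf_of_mem he (mem_principal.2 fun p ⟨V, a1, a2, a3, a4⟩ =>
      mem_principal.2 (image_subset_iff.2 fun t ht =>
        let ⟨a5, a6, a7⟩ := (H p.2 a2 a4).inn t ht; ⟨V, a1, a5, a6.trans_lt a3, a7⟩)))))
  have st2 : ∀ S ∈ l0 c κ k L m s W, ∀ᶠ p in l0 c κ k L m s W, ∀ t ∈ Icc 0 (T p.2),
      (p.1, ξ p.2 t) ∈ S := fun S hS =>
    mem_of_superset (mem_bind'.1 (st hS)) fun p a => image_subset_iff.1 (mem_principal.1 a)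
  let γ : Pz K → ℝ → Pz K := fun p t =>
    if a : ξ p.1.2 t ∈ K p.1.1 then ⟨(p.1.1, ξ p.1.2 t), a⟩ else p
  have g : ∀ᶠ p : Pz K in comap Subtype.val (l0 c κ k L m s W), Sg0 c W St b B p.1.2 (T p.1.2)
      (ξ p.1.2) ∧ ∀ t ∈ Icc 0 (T p.1.2), (γ p t).1 = (p.1.1, ξ p.1.2 t) :=
    (tendsto_comap.eventually (sg.and (st2 _ e))).mono fun p a =>
      ⟨a.1, fun t ht => congrArg Subtype.val (dif_pos (a.2 t ht))⟩
  have inn : ∀ S ∈ l0 c κ k L m s W, ∀ᶠ p : Pz K in comap Subtype.val (l0 c κ k L m s W),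
      ∀ t ∈ Icc 0 (T p.1.2), (γ p t).1 ∈ S := fun S hS =>
    (g.and (tendsto_comap.eventually (st2 S hS))).mono fun p a t ht => a.1.2 t ht ▸ a.2 t ht
  refine ⟨⟨γ, fun p => T p.1.2, fun p => (c.lam (pj p.1.2))⁻¹, g.mono fun p a =>
    ⟨a.1.le, Subtype.ext ((a.2 _ ⟨a.1.le, le_rfl⟩).trans (by rw [a.1.fin]))⟩,
    fun S ⟨S', a1, a2⟩ => (inn S' a1).mono fun p a t ht => a2 (a t ht),
    tendsto_comap_iff.2 (tendsto_inf.2 ⟨fun S hS => ((inn S hS).and g).mono fun p a =>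
      a.1 0 ⟨le_rfl, a.2.1.le⟩, tendsto_principal.2 (g.mono fun p a => ?_)⟩),
    ⟨c0⁻¹, (tendsto_comap.eventually z).mono fun p a => ?_⟩, fun f hf => g.mono fun p a t ht => ?_⟩,
    .of_forall fun p => b0 _, B, g.mono fun p a => ?_⟩
  · show St (γ p 0).1.2
    rw [a.2 0 ⟨le_rfl, a.1.le⟩]
    exact a.1.ini
  · have := c2 _ a.1.2.2.2.1.1
    exact ⟨inv_nonneg.2 (c1.le.trans this), inv_anti₀ c1 this⟩
  · obtain ⟨v, d1, d2⟩ := a.1.der t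
    have e1 := a.2 t ht
    have d3 := ((ev_at (rep_sm f) (γ p t)).differentiableAt (by simp)).hasFDerivAt
    have d4 := chain hK hf (γ p t) v
    have d5 := ev_vk h hK (γ p t)
    rw [hX f hf, map_sum]
    simp only [map_mul, d5]
    rw [e1] at d3 ⊢
    nth_rewrite 1 2 3 [e1] at d4
    refine ((d3.comp_hasDerivAt t d1).hasDerivWithinAt.congr_of_mem
      (fun u hu => congrArg (rep f) (a.2 u hu)) ht).congr_deriv (d4.trans ?_)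
    simp [d2, Finset.mul_sum, mul_assoc]
  · obtain ⟨β, β', a1, a2⟩ := a.1.int
    refine ⟨β, β', fun t ht => ⟨(a1 t ht).1.hasDerivWithinAt, ?_⟩, a2⟩
    show (c.lam (pj (γ p t).1.2))⁻¹ * b (γ p t).1.2 ≤ _
    rw [a.2 t ht]
    exact (a1 t ht).2

theorem pj_rot (x : E6) (t r θ : ℝ) (h : x.2.1 ≠ 0) :
    pj (t, r, x.2.2.1, cexp (θ * I) * x.2.2.2) = pol t (r / x.2.1) θ (pj x) ∧
      nq (t, r, x.2.2.1, cexp (θ * I) * x.2.2.2) = nq x := by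
  have e : nq (t, r, x.2.2.1, cexp (θ * I) * x.2.2.2) = nq x := by
    simp [nq, normSq_eq_norm_sq]
  refine ⟨?_, e⟩
  rw [pj, e]
  simp only [pol, pj, map_mul, normSq_eq_norm_sq, norm_exp_ofReal_mul_I, mul_re, mul_im,
    exp_ofReal_mul_I_re, exp_ofReal_mul_I_im, Prod.mk.injEq, true_and]
  refine ⟨?_, ?_, ?_⟩ <;> field_simp
  all_goals ring

/-- The line of X through a point of the base. -/
theorem ray2 (h : c.Ok) {p : R4} (hp : p ∈ c.D) (h0 : -1 ≤ c.psi p) : ∃ (y : ℝ → R4) (σ s0 : ℝ),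
    (σ = 1 ∨ σ = -1) ∧ s0 ≤ 0 ∧ y 0 = p ∧ c.psi (y s0) < 0 ∧ (Monotone fun s => |dd c (y s)|) ∧
    ∀ s, (s0 ≤ s → -1 ≤ c.psi (y s)) ∧ y s ∈ c.D ∧ c.tau (y s) = c.tau p + s ∧
      0 ≤ σ * dd c (y s) ∧ HasDerivAt y ((c.lam (y s))⁻¹ • c.X (y s)) s ∧
      pol (y s).1 (rd (y s) / rd p) (c.J (rd (y s)) - c.J (rd p)) p = y s := by
  obtain ⟨Φ, i⟩ := h.ex_inv
  have hq := h.Psi_map hp
  have e0 : Φ (c.Psi p + (0 : ℝ) • eT) = p := by rw [zero_smul, add_zero, i.left _ hp]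
  have mD := fun s => i.map (P0_sh hq s)
  have b0 : -1 ≤ min (c.psi p) (-1 / 2) := le_min h0 (by norm_num)
  have b1 := min_le_right (c.psi p) (-1 / 2)
  obtain ⟨s1, a1, a2⟩ := (((h.exit i hq).eventually_le_atBot (min (c.psi p) (-1 / 2))).and
    (eventually_le_atBot 0)).exists
  obtain ⟨s0, b2, b3⟩ := intermediate_value_Icc a2
    (f := fun s : ℝ => c.psi (Φ (c.Psi p + s • eT))) (fun s _ => ((h.psi_cd
      (h.pos (mD s))).continuousAt.comp (f := fun s : ℝ => Φ (c.Psi p + s • eT))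
        (h.ga_d i hq s).continuousAt).continuousWithinAt)
    ⟨a1, (min_le_left _ _).trans_eq (congrArg _ e0.symm)⟩
  obtain ⟨σ, s1, s2⟩ : ∃ σ : ℝ, (σ = 1 ∨ σ = -1) ∧
      ∀ s : ℝ, 0 ≤ σ * (rd (Φ (c.Psi p + s • eT)) - c.R1) := by
    have k := fun s => h.side i (P0_sh hq s)
    simp only [rd_sh] at k
    rcases lt_or_ge (rd (c.Psi p)) 1 with k1 | k1
    · exact ⟨-1, .inr rfl, fun s => by linarith [(k s).2.1 k1]⟩
    · exact ⟨1, .inl rfl, fun s => by linarith [not_lt.1 fun e => k1.not_gt ((k s).2.2 e)]⟩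
  refine ⟨fun s => Φ (c.Psi p + s • eT), σ, s0, s1, b2.2, e0, b3.trans_lt (by linarith),
    h.rad i hq, fun s => ⟨fun hs => ?_, mD s, Pm.tau_ga i hq s, s2 s, h.ga_d i hq s, ?_⟩⟩
  · rcases hs.eq_or_lt with k | k
    · exact k ▸ b0.trans b3.ge
    · have := h.col i ⟨by linarith, by linarith⟩ (P0_sh hq s0) b3.ge (sub_pos.2 k)
      rw [add_assoc, ← add_smul, add_sub_cancel] at this
      exact b0.trans this.le
  · have k := h.back (mD s)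
    rw [i.right _ (P0_sh hq s), rd_sh, h.rd_Psi hp] at k
    refine Eq.trans ?_ k
    rw [← div_mul_div_cancel₀ (Real.exp_pos (c.lab p)).ne', sub_eq_add_neg, ← pol_pol (c.tau p)]
    simp [pol, eT, Pm.Psi]

/-- The lift of the line. -/
theorem lift (h : c.Ok) {x : E6} (hx : x ∈ Zs c.sc c.Rs) : ∃ (ξ : ℝ → E6) (σ s0 : ℝ),
    (σ = 1 ∨ σ = -1) ∧ s0 ≤ 0 ∧ ξ 0 = x ∧ c.psi (pj (ξ s0)) < 0 ∧
    (Monotone fun s => |dd c (pj (ξ s))|) ∧ (∀ s ∈ Icc s0 0, ξ s ∈ Zs c.sc c.Rs) ∧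
    ∀ s, c.tau (pj (ξ s)) = c.tau (pj x) + s ∧ 0 ≤ σ * dd c (pj (ξ s)) ∧
      0 < (c.lam (pj (ξ s)))⁻¹ ∧
      (∃ v, HasDerivAt ξ v s ∧ fderiv ℝ pj (ξ s) v = (c.lam (pj (ξ s)))⁻¹ • c.X (pj (ξ s))) ∧
      HasDerivAt (fun s => (ξ s).1) ((c.lam (pj (ξ s)))⁻¹ * c.aa (rd (pj (ξ s)))) s ∧
      HasDerivAt (fun s => dd c (pj (ξ s))) ((c.lam (pj (ξ s)))⁻¹ * c.rr (rd (pj (ξ s)))) s := by
  obtain ⟨c0, c1, c2⟩ := h.lam_pos
  have r0 := P354YA.Zs.rd hx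
  obtain ⟨y, σ, s0, a1, a2, a3, a4, a5, H⟩ := ray2 h hx.2.2.2.1.1 hx.2.2.2.2
  have r1 := fun s => h.pos (H s).2.1
  have d1 : ∀ s, HasDerivAt (fun s => (y s).1) ((c.lam (y s))⁻¹ * c.aa (rd (y s))) s := fun s =>
    (hasFDerivAt_fst.comp_hasDerivAt s (H s).2.2.2.2.1).congr_deriv (congrArg _ (c.X_fst _))
  have d2 : ∀ s, HasDerivAt (fun s => rd (y s)) ((c.lam (y s))⁻¹ * c.rr (rd (y s))) s := fun s =>
    (((rd_cd (n := 1) (r1 s).ne').differentiableAt one_ne_zero).hasFDerivAt.comp_hasDerivAt s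
      (H s).2.2.2.2.1).congr_deriv (by
        rw [map_smul, rd_fd (r1 s).ne', Pm.X_dr c (r1 s).ne', smul_eq_mul])
  obtain ⟨ξ, hξ⟩ : ∃ ξ : ℝ → E6, ξ = fun s => ((y s).1, rd (y s), x.2.2.1,
    cexp ((c.J (rd (y s)) - c.J x.2.1 : ℝ) * I) * x.2.2.2) := ⟨_, rfl⟩
  have k : ∀ s, pj (ξ s) = y s ∧ nq (ξ s) = 1 := fun s => by
    have k := pj_rot x (y s).1 (rd (y s)) (c.J (rd (y s)) - c.J x.2.1) hx.2.1.ne'
    rw [hξ]
    exact ⟨k.1.trans (r0 ▸ (H s).2.2.2.2.2), k.2.trans hx.1⟩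
  have d3 : ∀ s, DifferentiableAt ℝ ξ s := fun s => hξ ▸ (d1 s).differentiableAt.prodMk
    ((d2 s).differentiableAt.prodMk ((differentiableAt_const _).prodMk
      (((((h.J_cd.1.differentiable (by simp) _).hasDerivAt.comp s (d2 s)).sub_const
        _).ofReal_comp.mul_const I).cexp.mul_const _).differentiableAt))
  refine ⟨ξ, σ, s0, a1, a2, ?_, (k s0).1 ▸ a4, ?_, fun s hs => ?_, fun s => ?_⟩
  · simp only [hξ, a3, r0]
    simp [pj]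
  · simpa only [(k _).1] using a5
  · have b1 := (H s).1 hs.1
    have b2 := a5 hs.2
    have b3 := (H s).2.2.2.1
    have b4 := (H 0).2.2.2.1
    simp only [dd, a3, r0] at b2 b3 b4
    have e : (ξ s).2.1 = rd (y s) := by rw [hξ]
    refine ⟨(k s).2, e ▸ r1 s, e ▸ ?_, (k s).1 ▸ ⟨(H s).2.1, by linarith⟩, (k s).1 ▸ b1⟩
    rcases a1 with rfl | rfl
    · rw [abs_of_nonneg (by linarith), abs_of_nonneg (by linarith)] at b2
      linarith [hx.2.2.1]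
    · linarith [h.Rs]
  · simp only [(k _).1]
    refine ⟨(H s).2.2.1, (H s).2.2.2.1, inv_pos.2 (c1.trans_le (c2 _ (H s).2.1)),
      ⟨_, (d3 s).hasDerivAt, ?_⟩, hξ ▸ d1 s, (d2 s).sub_const _⟩
    exact (((cd_pj (ne_of_nq (k s).2)).differentiableAt (by simp)).hasFDerivAt.comp_hasDerivAt s
      (d3 s).hasDerivAt).unique ((H s).2.2.2.2.1.congr_of_eventuallyEq (.of_forall fun s => (k s).1))

theorem sh_d {F : Type} [NormedAddCommGroup F] [NormedSpace ℝ F] {f : ℝ → F} {v : F} {s t : ℝ}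
    (h : HasDerivAt f v (t + s)) : HasDerivAt (fun t => f (t + s)) v t := h.comp_add_const t s

/-- The segments in the tube. -/
theorem seg_T (h : c.Ok) (k1 : c.k = 1) {s : ℝ} (hs : 1 < s) : ∃ B, ∀ x ∈ Zs c.sc c.Rs,
    dd c (pj x) ∈ WT → ∃ T ξ, Sg0 c WT (fun x => c.psi (pj x) < 0)
      (fun x => (1 + |x.1|) ^ (-s) + |dd c (pj x)|) B x T ξ := by
  obtain ⟨P, b, hP⟩ := ex_prim hs
  refine ⟨4 / 3 * b + 1 / 8, fun x hx hW => ?_⟩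
  obtain ⟨ξ, σ, s0, a1, a2, a3, a4, a5, a6, H⟩ := lift h hx
  have m : ∀ t ∈ Icc 0 (-s0), t + s0 ∈ Icc s0 0 := fun t ht =>
    ⟨by linarith [ht.1], by linarith [ht.2]⟩
  have w : ∀ t ≤ 0, |dd c (pj (ξ t))| ≤ 1 / 8 := fun t ht =>
    (a5 ht).trans (by simp only [a3]; exact hW)
  refine ⟨-s0, fun t => ξ (t + s0), neg_nonneg.2 a2, by simp [a3], by simpa using a4,
    fun t ht => ⟨a6 _ (m t ht), by linarith [(H (t + s0)).1, (m t ht).2], w _ (m t ht).2⟩,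
    fun t => let ⟨v, d1, d2⟩ := (H (t + s0)).2.2.2.1; ⟨v, sh_d d1, d2⟩,
    fun t => 4 / 3 * P (ξ (t + s0)).1 + σ * dd c (pj (ξ (t + s0))), _, fun t ht =>
      ⟨sh_d ((((hP _).1.comp _ (H (t + s0)).2.2.2.2.1).const_mul (4 / 3)).add
        ((H (t + s0)).2.2.2.2.2.const_mul σ)), ?_⟩, ?_⟩
  · obtain ⟨-, b1, b2, -⟩ := H (t + s0)
    obtain ⟨-, b3, b4⟩ := tube_x h (r := rd (pj (ξ (t + s0))))
      ((w _ (m t ht).2).trans (by rw [k1]; norm_num))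
    rw [b3, Pm.xi, k1, one_mul, show |dd c _| = _ from (rr_out h a1 b1).1]
    have b5 : 0 < (1 + |(ξ (t + s0)).1|) ^ (-s) := by positivity
    nlinarith [mul_le_mul_of_nonneg_left b4 (mul_pos b2 b5).le]
  · have b1 := (H (0 + s0)).2.1
    have b2 := (rr_out h a1 (H (-s0 + s0)).2.1).1.ge.trans (w _ (by simp))
    simp only [dd] at b1 ⊢
    linarith [(hP (ξ (-s0 + s0)).1).2.2, (hP (ξ (0 + s0)).1).2.1]

/-- The segments outside of the tube. -/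
theorem seg_O (h : c.Ok) (k1 : c.k = 1) : ∀ x ∈ Zs c.sc c.Rs, dd c (pj x) ∈ WO → ∃ T ξ,
    Sg0 c WO (fun x => c.psi (pj x) < 0 ∨ dd c (pj x) ∈ WT) (fun _ => 1) (8 * c.Rs) x T ξ := by
  intro x hx hW
  obtain ⟨ξ, σ, s1, a1, a2, a3, a4, a5, a6, H⟩ := lift h hx
  obtain ⟨s0, m0, m1, m2⟩ : ∃ s0 ∈ Icc s1 0, (c.psi (pj (ξ s0)) < 0 ∨ dd c (pj (ξ s0)) ∈ WT) ∧
      1 / 8 ≤ |dd c (pj (ξ s0))| := by
    rcases le_total (1 / 8) |dd c (pj (ξ s1))| with k | k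
    · exact ⟨s1, ⟨le_rfl, a2⟩, .inl a4, k⟩
    · obtain ⟨s0, b1, b2⟩ := intermediate_value_Icc a2 (f := fun s => |dd c (pj (ξ s))|)
        (fun s _ => (H s).2.2.2.2.2.continuousAt.abs.continuousWithinAt) ⟨k, a3 ▸ hW⟩
      exact ⟨s0, b1, .inr b2.le, b2.ge⟩
  have m : ∀ t ∈ Icc 0 (-s0), t + s0 ∈ Icc s1 0 := fun t ht =>
    ⟨by linarith [ht.1, m0.1], by linarith [ht.2]⟩
  have w : ∀ t ≥ 0, 1 / 8 ≤ |dd c (pj (ξ (t + s0)))| := fun t ht => m2.trans (a5 (by linarith))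
  refine ⟨-s0, fun t => ξ (t + s0), neg_nonneg.2 m0.2, by simp [a3], by simpa using m1,
    fun t ht => ⟨a6 _ (m t ht), by linarith [(H (t + s0)).1, (m t ht).2], w _ ht.1⟩,
    fun t => let ⟨v, d1, d2⟩ := (H (t + s0)).2.2.2.1; ⟨v, sh_d d1, d2⟩,
    fun t => 8 * σ * dd c (pj (ξ (t + s0))), _, fun t ht =>
      ⟨sh_d ((H (t + s0)).2.2.2.2.2.const_mul (8 * σ)), ?_⟩, ?_⟩
  · obtain ⟨-, b1, b2, -⟩ := H (t + s0)
    obtain ⟨b3, -, b4⟩ := rr_out h a1 b1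
    have b5 := w t ht.1
    have b6 : 1 / 8 ≤ σ * c.rr (rd (pj (ξ (t + s0)))) := by
      rcases le_total |rd (pj (ξ (t + s0))) - c.R1| (1 / (4 * c.k)) with k | k
      · rw [(tube_x h k).2.1, Pm.xi, k1, one_mul, ← b3]
        exact b5
      · linarith [b4 (b3 ▸ k)]
    nlinarith [mul_le_mul_of_nonneg_left b6 b2.le]
  · have b1 := (H (0 + s0)).2.1
    have b2 := (rr_out h a1 (H (-s0 + s0)).2.1).1.ge
    have b3 : |rd (pj x) - c.R1| ≤ c.Rs := by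
      rw [P354YA.Zs.rd hx]
      exact abs_le.2 ⟨by linarith [hx.2.1, h.Rs], by linarith [hx.2.2.1, h.r10, h.lt]⟩
    simp only [dd, neg_add_cancel, a3] at b1 b2 ⊢
    linarith

/-- LINES. -/
theorem lines : LINES := fun _ h k1 _ _ _ _ _ hs _ hK _ hX =>
  let ⟨_, H⟩ := seg_T h.1 k1 hs
  ⟨mk_ln h.1 hK hX (fun _ => by positivity) H,
    mk_ln h.1 hK hX (fun _ => zero_le_one) (seg_O h.1 k1)⟩

end Vale.Agent.P354BK
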