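import Vale.Agent.P354BK.Defs

/-!
BACK: three self contained steps.
-/

open scoped ContDiff
open Set Filter Topology

noncomputable section

namespace Vale.Agent.P354BK

open Vale.Agent.P354n (R4)
open Vale.Agent.P354R (Pull)
open Vale.Agent.P354XE (Tw Bd gin rd)
open Vale.Agent.P354YT (Pm)

/-- The cone condition at p for the set Z. -/
def Cn (Z : Set R4) (t0 A : ℝ) (p : R4) : Prop :=
  ∃ v : R4, ‖v‖ ≤ A ∧ ∀ w : R4, ‖w‖ ≤ 1 → ∀ s ∈ Icc 0 t0, p + s • (v + w) ∈ Z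

/-- CONE: the region of the assumption has the cone condition above the collar. -/
def CONE : Prop :=
  ∀ (c : Pm) ν, c.Ok → Nu c ν → ∃ t0 > 0, ∃ A, ∀ V, ∀ p ∈ Zo c ν V, 0 ≤ c.psi p →
    Cn (Zo c ν V) t0 A p

/-- ITP: iterated interpolation. -/
def ITP : Prop :=
  ∀ (k : ℕ) (t0 A C δ : ℝ), 0 < t0 → 0 < δ → ∃ ε > 0, ∀ (Z Y : Set R4) (h : Tw),
    (∀ p ∈ Z, (∀ v w, ContDiffAt ℝ ∞ (fun x => h x v w) p) ∧ (p ∉ Y → Cn Z t0 A p) ∧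
      Bd (k + 1) h p C ∧ Bd 0 h p ε ∧ (p ∈ Y → Bd k h p ε)) → ∀ p ∈ Z, Bd k h p δ

/-- ZERO: the order zero. -/
def ZERO : Prop :=
  ∀ c : Pm, c.Ok → ∀ δ > 0, ∃ ε > 0, ∀ p g gt a M' a' W Wt, c.r1 ≤ rd p → rd p ≤ c.Rs →
    Pull a g W gt Wt → p ∈ W → |M' - c.M| + |a' - c.a| ≤ ε → ‖(a p).2 - p.2‖ ≤ ε →
    ‖fderiv ℝ a p - ContinuousLinearMap.id ℝ R4‖ ≤ ε → Bd 0 (gt - gin M' a') (a p) ε →
    Bd 0 (g - gin c.M c.a) p δ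

end Vale.Agent.P354BK
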