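import Vale.Agent.P354BK.Line
import Vale.Agent.P354BK.Props

/-!
BACK, last part: the improvement of the first bootstrap assumption.
-/

open scoped ContDiff
open Set Filter Topology

noncomputable section

namespace Vale.Agent.P354BK

open Vale.Agent.P354n (R4)
open Vale.Agent.P354XD (tb)
open Vale.Agent.P354XE (Tw Bd gin rd eT)
open Vale.Agent.P354XA (rd_cont)
open Vale.Agent.P354YT (Pm TAU)
open Vale.Agent.P354YN (KERR NATU)
open Vale.Agent.P354YI (Oj Jb)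
open Vale.Agent.P354YO (bd_mono bd_of_oj sb_gin pr0 shell_cpt)
open Vale.Agent.P354YJ (gin_cd)

variable {c : Pm} {ν : ℝ → ℝ} {V : ℝ} {p : R4}

theorem bd_gin (M a : ℝ) {r0 : ℝ} (h0 : 0 < r0) (R : ℝ) (k : ℕ) :
    ∃ C, ∀ p, r0 ≤ rd p → rd p ≤ R → Bd k (gin M a) p C := by
  obtain ⟨C, -, hC⟩ := bd_of_oj (x := fun j : {p : R4 // r0 ≤ rd p ∧ rd p ≤ R} => j.1)
    (h := fun _ => gin M a) (μ := 1) (m := k) (fun j => sb_gin (h0.trans_le j.2.1))
    (Oj.comp (f := fun _ => pr0) (fun _ => pr0.contDiff.contDiffAt) k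
      (G := fun _ z => tb (gin M a) z) ((Oj.cst pr0).congr' fun _ _ => pr0.fderiv)
      (Oj.fix (shell_cpt r0 R) (fun z hz => (sb_gin (h0.trans_le hz.2.1)).cd)
        fun j => ⟨rfl, j.2⟩))
  exact ⟨C * 1, fun p h1 h2 => hC ⟨p, h1, h2⟩⟩

theorem bd_sub {k : ℕ} {g g' : Tw} {A B : ℝ} (s : ∀ v w, ContDiffAt ℝ ∞ (fun x => g x v w) p)
    (s' : ∀ v w, ContDiffAt ℝ ∞ (fun x => g' x v w) p) (h : Bd k g p A) (h' : Bd k g' p B) :
    Bd k (g - g') p (A + B) := fun i hi v w => by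
  have e := iteratedFDeriv_sub_apply ((s v w).of_le (P354YI.le_inf i))
    ((s' v w).of_le (P354YI.le_inf i))
  rw [add_mul]
  exact (congrArg norm e).trans_le (norm_sub_le_of_le (h i hi v w) (h' i hi v w))

theorem Nu.cont (h : Nu c ν) : Continuous ν :=
  (LipschitzWith.of_le_add_mul 1 fun x y => by
    rcases le_total x y with k | k
    · have := h.mono k
      simpa using this.trans (le_add_of_nonneg_right dist_nonneg)
    · have := h.lip y x k
      have := le_abs_self (x - y)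
      simp only [NNReal.coe_one, one_mul, Real.dist_eq]
      linarith).continuous

theorem zc_cl (h : c.Ok) (hν : Nu c ν) (hp : p ∈ Zc c ν V) (h0 : 0 ≤ c.psi p) :
    p ∈ closure (Zo c ν V) := by
  have p0 := h.pos hp.1.1
  have t : Tendsto (fun s : ℝ => s • p) (𝓝[<] 1) (𝓝 p) :=
    ((continuous_id.smul continuous_const).tendsto' 1 p (one_smul _ _)).mono_left
      nhdsWithin_le_nhds
  refine mem_closure_of_tendsto t ?_
  filter_upwards [t.eventually (h.open_O.mem_nhds hp.1), t.eventually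
    (continuousAt_const.eventually_lt (h.psi_cd p0).continuousAt (show -1 < c.psi p by linarith)),
    t.eventually (((h.tau_cd hp.1.1).continuousAt.add (hν.cont.comp
      rd_cont).continuousAt).eventually_lt continuousAt_const hp.2.2.2),
    Ioo_mem_nhdsLT (zero_lt_one (α := ℝ))] with s a1 a2 a3 a4
  refine ⟨a1, a2, ?_, a3⟩
  have e : rd (s • p) = s * rd p := P354YT.rd_pol (s * p.1) s 0 a4.1.le p ▸
    congrArg rd (by simp [P354YT.pol, Prod.ext_iff])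
  exact e.trans_lt ((mul_lt_of_lt_one_left p0 a4.2).trans_le hp.2.2.1)

set_option maxSynthPendingDepth 3 in
/-- Interpolation under the cone condition. -/
theorem cone_fd {Z : Set R4} {t0 A t η C : ℝ} {f : R4 → R4} (hc : Cn Z t0 A p) (t1 : 0 < t)
    (t2 : t ≤ t0) (h : ∀ q ∈ Z, ContDiffAt ℝ 2 f q ∧ ‖f q‖ ≤ η ∧
      ‖fderiv ℝ (fderiv ℝ f) q‖ ≤ C) : ‖fderiv ℝ f p‖ ≤ 2 * (2 * η / t + |C| * (A + 1) ^ 2 * t) := by
  obtain ⟨v, hv, k⟩ := hc
  have b : ∀ w : R4, ‖w‖ ≤ 1 → ‖fderiv ℝ f p (v + w)‖ ≤ 2 * η / t + |C| * (A + 1) ^ 2 * t :=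
    fun w hw => (interp t1 fun s hs => h _ (k w hw s ⟨hs.1, hs.2.trans t2⟩)).trans (by
      have := norm_add_le_of_le hv hw
      gcongr
      exact le_abs_self C)
  have b0 := b 0 (by simp)
  refine ContinuousLinearMap.opNorm_le_of_unit_norm (by linarith [norm_nonneg (fderiv ℝ f p (v + 0))])
    fun w hw => ?_
  rw [show fderiv ℝ f p w = fderiv ℝ f p (v + w) - fderiv ℝ f p (v + 0) by simp, two_mul]
  exact norm_sub_le_of_le (b w hw.le) b0

theorem La_id (κ : ℝ) : ‖La κ - ContinuousLinearMap.id ℝ R4‖ ≤ |κ - 1| :=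
  ContinuousLinearMap.opNorm_le_bound _ (abs_nonneg _) (La_sub κ)

theorem ee_d2 {κ t0 : ℝ} {a : R4 → R4} (h : ContDiffAt ℝ ∞ a p) :
    fderiv ℝ (fderiv ℝ (ee κ t0 a)) p = fderiv ℝ (fderiv ℝ a) p := by
  have e : fderiv ℝ (ee κ t0 a) =ᶠ[𝓝 p] fun q => fderiv ℝ a q - La κ :=
    ((h.of_le (show 1 ≤ ∞ by simp)).eventually (by simp)).mono fun q hq =>
      (ee_fd (hq.differentiableAt one_ne_zero)).fderiv
  rw [e.fderiv_eq, fderiv_sub_const]

set_option maxSynthPendingDepth 3 in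
/-- **BACK0.** -/
theorem back0 (hK : KERR) (hN : NATU) (hT : TAU) (h1 : CONE) (h2 : ITP) (h3 : ZERO) : BACK0 := by
  intro c N ν h G hν k s C δ hs hδ
  obtain ⟨t0, t1, A, H1⟩ := h1 c ν h hν
  obtain ⟨Cg, hg⟩ := bd_gin c.M c.a h.r10 c.Rs (k + 1)
  obtain ⟨ε1, e1, H2⟩ := h2 k t0 A (C + Cg) δ t1 hδ
  obtain ⟨ε2, e2, H3⟩ := h3 c h ε1 e1
  obtain ⟨ε0, e0, K, k1, H4⟩ := line hK hN h (hT c h).2.1 G hν hs
  obtain ⟨t, u0, u1, u2⟩ : ∃ t > 0, t ≤ t0 ∧ |C| * (A + 1) ^ 2 * t ≤ ε2 / 8 := by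
    refine ⟨min t0 (ε2 / (8 * (|C| * (A + 1) ^ 2 + 1))), by positivity, min_le_left _ _,
      (mul_le_mul_of_nonneg_left (min_le_right _ _) (by positivity)).trans ?_⟩
    rw [← mul_div_assoc, div_le_div_iff₀ (by positivity) (by norm_num)]
    nlinarith
  refine ⟨min (min ε0 (min ε1 δ)) (min (ε2 / (2 * K)) (ε2 * t / (16 * K))), by positivity, ?_⟩
  intro V g a gt M' a' lk hz hc
  have m0 : 0 < min (min ε0 (min ε1 δ)) (min (ε2 / (2 * K)) (ε2 * t / (16 * K))) := by positivity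
  obtain ⟨⟨m1, m2, m3⟩, m4, m5⟩ : (_ ∧ _ ∧ _) ∧ _ ∧ _ := by
    simpa only [le_min_iff] using
      le_refl (min (min ε0 (min ε1 δ)) (min (ε2 / (2 * K)) (ε2 * t / (16 * K))))
  generalize min (min ε0 (min ε1 δ)) (min (ε2 / (2 * K)) (ε2 * t / (16 * K))) = ε at *
  rw [le_div_iff₀' (by positivity)] at m4 m5
  obtain ⟨κ, T, q1, q2⟩ := H4 ε ⟨m0, m1⟩ C V g a gt M' a' lk fun p hp => ⟨(hz p hp).1, (hz p hp).2.1⟩
  obtain ⟨W, Wt, sub, u, -⟩ := lk.pull
  have sa : ∀ p ∈ Zo c ν V, ContDiffAt ℝ ∞ a p := fun p hp =>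
    u.smooth.contDiffAt (u.open'.mem_nhds (sub hp))
  have zc : Zo c ν V ⊆ Zc c ν V := fun p hp => ⟨hp.1, hp.2.1.le, hp.2.2.1.le, hp.2.2.2⟩
  have x1 : ε ≤ K * ε := le_mul_of_one_le_left m0.le k1
  have x2 : 2 * (K * ε) / t ≤ ε2 / 8 := by
    rw [div_le_iff₀ u0]
    linarith
  have sm : ∀ p ∈ Zc c ν V, ∀ v w, ContDiffAt ℝ ∞ (fun x => (g - gin c.M c.a) x v w) p :=
    fun p hp v w => ((hc p hp).1 v w).sub (gin_cd (h.pos hp.1.1) _ _ v w)
  have B := H2 (Zo c ν V) {p | c.psi p < 0} (g - gin c.M c.a) fun p hp => ⟨sm p (zc hp),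
    fun n => H1 V p hp (not_lt.1 n), bd_sub (hc p (zc hp)).1 (gin_cd (h.pos hp.1.1) _ _)
      (hz p hp).2.2 (hg p hp.1.1.le hp.2.2.1.le), ?_,
    fun n => bd_mono ((hc p (zc hp)).2 n) le_rfl m2⟩
  · intro p hp
    rcases lt_or_ge (c.psi p) 0 with n | n
    · exact bd_mono ((hc p hp).2 n) le_rfl m3
    · exact fun j hj v w => (((sm p hp v w).continuousAt_iteratedFDeriv
        (P354YI.le_inf j)).norm.continuousWithinAt).closure_le (zc_cl h hν hp n)
          continuousWithinAt_const fun y hy => B y hy j hj v w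
  rcases lt_or_ge (c.psi p) 0 with n | n
  · exact bd_mono ((hc p (zc hp)).2 n) k.zero_le m2
  have d := cone_fd (f := ee κ T a) (H1 V p hp n) u0 u1 fun q hq =>
    ⟨(((sa q hq).sub (La κ).contDiff.contDiffAt).sub contDiffAt_const).of_le (P354YI.le_inf 2),
      q2 q hq, ee_d2 (sa q hq) ▸ lk.d2 q hq⟩
  rw [(ee_fd ((sa p hp).differentiableAt (by simp))).fderiv] at d
  refine H3 p g gt a M' a' W Wt hp.1.1.le hp.2.2.1.le u (sub hp) (by linarith [lk.par])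
    (by linarith [ee_snd (κ := κ) (t0 := T) (a := a) (p := p), q2 p hp])
    ((norm_sub_le_norm_sub_add_norm_sub _ (La κ) _).trans (by linarith [La_id κ]))
    (bd_mono (lk.near p hp) (Nat.zero_le _) ?_)
  linarith [wt_le (zero_le_one.trans hs.le) m0.le (a p).1]

end Vale.Agent.P354BK
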