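import Vale.Agent.P354BK.Lip
import Vale.Agent.P354YT.Line
import Vale.Agent.P354YO.Ob

/-!
BACK, third part: the estimates at one point for the difference of the chart to a dilation of the
time.
-/

open scoped ContDiff
open Set Filter Topology

noncomputable section

namespace Vale.Agent.P354BK

open Vale.Agent.P354n (R4)
open Vale.Agent.P354I (rp)
open Vale.Agent.P354R (Met Del Pull)
open Vale.Agent.P354XE (Tw Bd gin rd eT Lo dr)
open Vale.Agent.P354XV (Lv Gq gq_iff)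
open Vale.Agent.P354XA (rd_cont)
open Vale.Agent.P354YT
open Vale.Agent.P354YN hiding No
open Vale.Agent.P354YO (bd_mono)

/-- The dilation of the time. -/
def La (κ : ℝ) : R4 →L[ℝ] R4 :=
  ContinuousLinearMap.id ℝ R4 + ((κ - 1) • ContinuousLinearMap.fst ℝ ℝ (ℝ × ℝ × ℝ)).smulRight eT

theorem La_ap (κ : ℝ) (v : R4) : La κ v = (κ * v.1, v.2) := by
  refine Prod.ext ?_ ?_
  · simp [La, eT]; ring
  · simp [La, eT]

theorem La_t (κ : ℝ) (v : R4) : ‖La κ v - v‖ = |κ - 1| * |v.1| := by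
  rw [La_ap, ← abs_mul, Prod.norm_def]
  simp [sub_mul]

theorem La_sub (κ : ℝ) (v : R4) : ‖La κ v - v‖ ≤ |κ - 1| * ‖v‖ :=
  (La_t κ v).trans_le (mul_le_mul_of_nonneg_left (norm_fst_le v) (abs_nonneg _))

theorem La_eT (κ : ℝ) : La κ eT = κ • eT := by simp [La_ap, eT]

theorem ex_ka {M M' ε : ℝ} (h0 : 0 < M) (h : |M' - M| ≤ ε) (h1 : ε ≤ M / 2) :
    ∃ κ, 0 < κ ∧ κ ^ 3 * M' = M ∧ |κ - 1| ≤ 2 / M * ε := by
  obtain ⟨a1, a2⟩ := abs_le.1 h
  have m : 0 < M' := by linarith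
  have k0 : 0 < (M / M') ^ ((3 : ℕ) : ℝ)⁻¹ := by positivity
  have k1 : ((M / M') ^ ((3 : ℕ) : ℝ)⁻¹) ^ 3 = M / M' :=
    Real.rpow_inv_natCast_pow (by positivity) three_ne_zero
  generalize (M / M') ^ ((3 : ℕ) : ℝ)⁻¹ = κ at k0 k1
  have k2 : κ ^ 3 * M' = M := by rw [k1, div_mul_cancel₀ _ m.ne']
  refine ⟨κ, k0, k2, ?_⟩
  have e : |κ - 1| * ((κ ^ 2 + κ + 1) * M') = |M' - M| := by
    rw [← abs_of_pos (show 0 < (κ ^ 2 + κ + 1) * M' by positivity), ← abs_mul, abs_sub_comm M']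
    congr 1
    linear_combination k2
  have k3 : M / 2 ≤ (κ ^ 2 + κ + 1) * M' := by nlinarith [mul_pos k0 m, mul_pos (pow_pos k0 2) m]
  rw [div_mul_eq_mul_div, le_div_iff₀ h0]
  nlinarith [mul_le_mul_of_nonneg_left k3 (abs_nonneg (κ - 1))]

variable {c : Pm} {N : P354XV.Nat}

theorem X_bd (h : c.Ok) : ∃ B, 1 ≤ B ∧ ∀ p, c.r1 ≤ rd p → rd p ≤ c.Rs → ‖c.X p‖ ≤ B := by
  obtain ⟨B, hB⟩ := (K0_cpt c).exists_bound_of_continuousOn (f := c.X) fun p hp =>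
    (h.X_cd (h.r10.trans_le hp.2.1)).continuousAt.continuousWithinAt
  exact ⟨max 1 B, le_max_left _ _, fun p h1 h2 =>
    (hB (0, p.2) ⟨rfl, h1, h2⟩).trans (le_max_right _ _)⟩

theorem xi_abs (h : c.Ok) {r : ℝ} : |c.xi r| = c.k * |r - c.R1| := by
  rw [Pm.xi, abs_mul, abs_of_pos h.k0]

theorem tube_x (h : c.Ok) {r : ℝ} (hr : |r - c.R1| ≤ 1 / (4 * c.k)) :
    |c.xi r| ≤ 1 / 4 ∧ c.rr r = c.xi r ∧ 3 / 4 ≤ c.aa r := by
  have k0 := h.k0
  have x : |c.xi r| ≤ 1 / 4 := by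
    rw [xi_abs h]
    refine (mul_le_mul_of_nonneg_left hr k0.le).trans_eq ?_
    field_simp
  obtain ⟨a1, a2, a3⟩ := al_mid x
  obtain ⟨x1, x2⟩ := abs_le.1 x
  have b := h.big (r := r) (by linarith)
  have b1 := rp_lt h.sub b
  refine ⟨x, by rw [Pm.rr, ← rt_mul, a2, a3]; ring, ?_⟩
  rw [Pm.aa, a1, a2, a3, lo1_eq (Del_pos h.sub b1).ne']
  nlinarith [qm_pos h.sub b1, qm_le h.sub b]

theorem rr_ge {x : ℝ} (h : 1 / 4 ≤ x) : 1 / 4 ≤ bp x - bp (-x) := by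
  obtain ⟨a, b⟩ := sg_mem x
  simp only [bp, al_neg]
  rw [al, sg_zero (x := -x) (by linarith)]
  nlinarith

/-- The data at one point. -/
structure Pt (c : Pm) (N : P354XV.Nat) (s ε κ : ℝ) (g : Tw) (a : R4 → R4) (gt : Tw) (M' a' : ℝ)
    (p : R4) : Prop where
  pull : ∃ W Wt, p ∈ W ∧ Pull a g W gt Wt ∧ Lv gt Wt
  det : 0 < LinearMap.det (fderiv ℝ a p : R4 →ₗ[ℝ] R4)
  par : |M' - c.M| + |a' - c.a| ≤ ε
  near : Bd (max N.m 3) (gt - gin M' a') (a p) (ε * (1 + |(a p).1|) ^ (-s))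
  ka : 0 < κ ∧ κ ^ 3 * M' = c.M ∧ |κ - 1| ≤ ε
  rad : c.r1 ≤ rd p ∧ rd p ≤ c.Rs
  gau : Gq N p g c.X p
  fst : Fst c g p

/-- The difference of the chart to the dilation, and its derivative along X. -/
def ee (κ t0 : ℝ) (a : R4 → R4) (p : R4) : R4 := a p - La κ p - t0 • eT
def uu (c : Pm) (κ : ℝ) (a : R4 → R4) (p : R4) : R4 := fderiv ℝ a p (c.X p) - La κ (c.X p)

variable {s ε κ t0 M' a' : ℝ} {g gt : Tw} {a : R4 → R4} {p : R4}

theorem ee_snd : ‖(a p).2 - p.2‖ ≤ ‖ee κ t0 a p‖ :=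
  le_of_eq_of_le (by simp [ee, La_ap, eT]) (norm_snd_le _)

theorem uu_X : ‖fderiv ℝ a p (c.X p) - c.X p‖ ≤ ‖uu c κ a p‖ + |κ - 1| * ‖c.X p‖ :=
  (norm_sub_le_norm_sub_add_norm_sub _ (La κ (c.X p)) _).trans (add_le_add le_rfl (La_sub _ _))

theorem ee_fd (h : DifferentiableAt ℝ a p) : HasFDerivAt (ee κ t0 a) (fderiv ℝ a p - La κ) p :=
  (h.hasFDerivAt.sub (La κ).hasFDerivAt).sub_const _

theorem wt_le (hs : 0 ≤ s) (hε : 0 ≤ ε) (x : ℝ) : ε * (1 + |x|) ^ (-s) ≤ ε :=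
  mul_le_of_le_one_right hε
    (Real.rpow_le_one_of_one_le_of_nonpos (by linarith [abs_nonneg x]) (by linarith))

theorem Pt.cd (P : Pt c N s ε κ g a gt M' a' p) : ContDiffAt ℝ ∞ a p :=
  let ⟨_, _, hp, u, _⟩ := P.pull
  u.smooth.contDiffAt (u.open'.mem_nhds hp)

theorem Pt.cw (h : c.Ok) (P : Pt c N s ε κ g a gt M' a' p) :
    DifferentiableAt ℝ (fun z => fderiv ℝ a z (c.X z)) p :=
  ((P.cd.fderiv_right (m := ∞) (by simp)).clm_apply
    (h.X_cd (h.r10.trans_le P.rad.1))).differentiableAt (by simp)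

theorem Pt.cu (h : c.Ok) (P : Pt c N s ε κ g a gt M' a' p) : HasFDerivAt (uu c κ a)
    (fderiv ℝ (fun z => fderiv ℝ a z (c.X z)) p - (La κ).comp (fderiv ℝ c.X p)) p :=
  (P.cw h).hasFDerivAt.sub ((La κ).hasFDerivAt.comp p
    ((h.X_cd (h.r10.trans_le P.rad.1)).differentiableAt (by simp)).hasFDerivAt)

/-- The estimates at one point. -/
theorem pt_est (hK : KERR) (hN : NATU) (h : c.Ok) (T : Tau c) (G : Gau c N) (hs : 0 ≤ s) :
    ∃ ρ > 0, ∃ K, 1 ≤ K ∧ ∀ ε κ t0 g a gt M' a' p, Pt c N s ε κ g a gt M' a' p → K * ε ≤ ρ →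
      ‖ee κ t0 a p‖ ≤ ρ → ‖uu c κ a p‖ ≤ ρ →
      (|rd p - c.R1| ≤ 1 / (4 * c.k) → 1 / 2 ≤ (fderiv ℝ a p (c.X p)).1 ∧ ‖uu c κ a p‖ ≤
        K * (ε * (1 + |(a p).1|) ^ (-s) + |c.xi (rd p)| * (‖ee κ t0 a p‖ + ε))) ∧
      ‖fderiv ℝ (uu c κ a) p (c.X p)‖ ≤ K * (‖ee κ t0 a p‖ + ‖uu c κ a p‖ + ε) := by
  obtain ⟨ρ1, r1, K1, k1, H1⟩ := tube_est hK h T
  obtain ⟨ρ2, r2, K2, k2, H2⟩ := far_est h T G
  obtain ⟨B, b1, hB⟩ := X_bd h
  have kb : 1 ≤ K2 * (B + 2) := one_le_mul_of_one_le_of_one_le k2 (by linarith)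
  refine ⟨min (min ρ1 ρ2) (1 / 5) / 2, by positivity, K1 + K2 * (B + 2), by linarith,
    fun ε κ t0 g a gt M' a' p P h1 h2 h3 => ?_⟩
  have m1 := min_le_left (min ρ1 ρ2) (1 / 5)
  have m2 := min_le_right (min ρ1 ρ2) (1 / 5)
  have m3 := min_le_left ρ1 ρ2
  have m4 := min_le_right ρ1 ρ2
  have m5 : 0 < min (min ρ1 ρ2) (1 / 5) := by positivity
  generalize min (min ρ1 ρ2) (1 / 5) = ρ at *
  obtain ⟨W, Wt, hp, u, l⟩ := P.pull
  obtain ⟨κ0, κ1, κ2⟩ := P.ka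
  have e0 : 0 ≤ ε := (abs_nonneg _).trans κ2
  have x1 := hB p P.rad.1 P.rad.2
  have x2 : |κ - 1| * ‖c.X p‖ ≤ ε * B := mul_le_mul κ2 x1 (norm_nonneg _) e0
  have x3 : ε * B + 2 * ε ≤ ρ / 2 := by
    nlinarith [mul_le_mul_of_nonneg_right k2 (mul_nonneg e0 (show 0 ≤ B + 2 by linarith))]
  have x4 : 0 ≤ ε * B := by positivity
  have y1 := (ee_snd (κ := κ) (t0 := t0) (a := a) (p := p))
  have y2 := (uu_X (c := c) (κ := κ) (a := a) (p := p)).trans (add_le_add le_rfl x2)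
  have hq := u.maps hp
  have sm : ∀ v w, ContDiffAt ℝ ∞ (fun x => gt x v w) (a p) := fun v w =>
    (l.met.smooth v w).contDiffAt (l.isOpen.mem_nhds hq)
  have w1 := wt_le hs e0 (a p).1
  have w0 : 0 ≤ ε * (1 + |(a p).1|) ^ (-s) := by positivity
  have n1 := norm_nonneg (ee κ t0 a p)
  have n2 := norm_nonneg (uu c κ a p)
  refine ⟨fun ht => ?_, ?_⟩
  · obtain ⟨t1, -, t3⟩ := tube_x h ht
    obtain ⟨f1, f2⟩ := P.fst ht
    obtain ⟨-, -, g1, g2, g3, -⟩ := (hN c.M a g W gt Wt p (c.X p) u l hp P.det).2.2.2.2 f1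
    obtain ⟨z1, z2, z3⟩ := H1 p (a p) (fderiv ℝ a p (c.X p)) gt M' a' ε _ κ ht P.par (by linarith)
      (by linarith) (by linarith) sm (bd_mono P.near (le_max_right _ _) le_rfl) w1 κ0 κ1
    have e1 := congrArg (fderiv ℝ a p) f2
    rw [map_add, map_smul, map_sub, g1, g2, g3] at e1
    have e2 := congrArg (La κ) (T.X_tube p ht)
    rw [map_add, map_smul, La_eT] at e2
    have z4 := (La_sub κ (Lo c.M c.a p - No p)).trans (mul_le_mul κ2 z3 (norm_nonneg _) e0)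
    constructor
    · have a1 : (uu c κ a p).1 = (fderiv ℝ a p (c.X p)).1 - κ * c.aa (rd p) := by
        rw [uu, La_ap, Pm.X_fst]; rfl
      have a2 := (abs_le.1 ((norm_fst_le (uu c κ a p)).trans h3)).1
      have a3 := (abs_le.1 κ2).1
      nlinarith
    · rw [uu, e2]
      nth_rewrite 1 [e1]
      rw [add_sub_add_comm, ← smul_sub]
      refine (norm_add_le_of_le z1 ((norm_smul_le _ _).trans (mul_le_mul_of_nonneg_left
        ((norm_sub_le_norm_sub_add_norm_sub _ (Lo c.M c.a p - No p) _).trans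
          (add_le_add z2 ((norm_sub_rev _ _).trans_le z4))) (norm_nonneg _)))).trans ?_
      rw [Real.norm_eq_abs, abs_div, abs_two, show c.k * (rd p - c.R1) = c.xi (rd p) from rfl]
      have a0 := abs_nonneg (c.xi (rd p))
      have a1 : K1 * (ε + ‖(a p).2 - p.2‖) + ε * K1 ≤ 2 * (K1 * (‖ee κ t0 a p‖ + ε)) := by
        nlinarith
      have a2 := mul_le_mul_of_nonneg_left a1 a0
      have a3 : 0 ≤ K2 * (B + 2) * (ε * (1 + |(a p).1|) ^ (-s) +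
        |c.xi (rd p)| * (‖ee κ t0 a p‖ + ε)) := by positivity
      nlinarith
  · have dX := (h.X_cd (h.r10.trans_le P.rad.1)).differentiableAt (by simp)
    have e1 := ((P354YQ.eq2_iff l.isOpen l.met hq).1 ((gq_iff G.is u l hp P.det dX).1 P.gau)).2
    obtain ⟨z1, z2⟩ := H2 p (a p) (fderiv ℝ a p (c.X p)) gt Wt M' a' ε P.rad.1 P.rad.2 P.par
      (by linarith) (by linarith) (by linarith) l.isOpen l.met hq (bd_mono P.near le_rfl w1)
    rw [← e1] at z1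
    have z4 := (La_sub κ (fderiv ℝ c.X p (c.X p))).trans (mul_le_mul κ2 z2 (norm_nonneg _) e0)
    rw [(P.cu h).fderiv]
    refine ((norm_sub_le_norm_sub_add_norm_sub _ (fderiv ℝ c.X p (c.X p)) _).trans
      (add_le_add z1 ((norm_sub_rev _ _).trans_le z4))).trans ?_
    have a1 := mul_le_mul_of_nonneg_left (add_le_add (add_le_add (le_refl ε) y1) y2)
      (zero_le_one.trans k2)
    have a2 : 0 ≤ K1 * (‖ee κ t0 a p‖ + ‖uu c κ a p‖ + ε) := by positivity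
    have a3 : 0 ≤ K2 * (B + 1) * (‖ee κ t0 a p‖ + ‖uu c κ a p‖) := by positivity
    exact (add_le_add a1 le_rfl).trans (by linarith only [a2, a3])

end Vale.Agent.P354BK
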